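import Vale.Agent.P155.NT862.ConnR
import Vale.Agent.P155.G45.Basic
import Vale.Agent.P155.NT905.LayH

/-!
# P155, NT862: separation lemma P1 (walks)

`E ⊆ E'` explored sets.  `l₀` = reference chain of unexplored vertices from `v₁` to `z`, `k` =
chain from `z` to `v₁` along the wall (`SS T E`), `l₁` = new path from `v₁` to the ball around `z`,
continued in the ball to `z`.  The label of an old face is the parity of `l₀ + k`.  Two old faces
which can be reached by face walks from the same face, off the new path and off the ball, have the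
same label.
-/

namespace Vale.Agent.P155.NT862

open Vale.Agent.P155 T802 Finset NT Relation NT733

variable {T : Temp} {E E' : Set Pt} {P : Pt → Pt → Prop} {x y z v₁ : Pt} {a b : Pt → ZMod 2}

/-! ### one step of a face walk -/

theorem par_vert (h : EvenSet a b) (u v : ℤ) (hne : par a (u, v) ≠ par a (u - 1, v)) :
    a (u, v) ≠ 0 := by
  intro h0
  exact hne (by rw [par_right h, h0, add_zero])

theorem par_hor (h : EvenSet a b) (u v : ℤ) (hne : par a (u, v) ≠ par a (u, v - 1)) :
    b (u, v) ≠ 0 := by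
  intro h0
  exact hne (by rw [par_up h, h0, add_zero])

/-- a flip of the parity is the crossing of an edge -/
theorem cross_edge (h : Chain P x x a b) {f f' : Pt} (hff : f' ∈ nbrs f)
    (hne : par a f ≠ par a f') : ∃ u w, P u w ∧ u ∈ corners f ∧ w ∈ corners f ∧
      u ∈ corners f' ∧ w ∈ corners f' := by
  have hE := h.even
  obtain ⟨p, q⟩ := f
  simp only [nbrs, mem_insert, mem_singleton] at hff
  rcases hff with rfl | rfl | rfl | rfl
  · have h0 := par_vert hE (p + 1) q (by rw [add_sub_cancel_right]; exact hne.symm)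
    exact ⟨_, _, h.av _ h0, by simp [mem_corners], by simp [mem_corners], by simp [mem_corners],
      by simp [mem_corners]⟩
  · have h0 := par_vert hE p q hne
    exact ⟨_, _, h.av _ h0, by simp [mem_corners], by simp [mem_corners], by simp [mem_corners],
      by simp [mem_corners]⟩
  · have h0 := par_hor hE p (q + 1) (by rw [add_sub_cancel_right]; exact hne.symm)
    exact ⟨_, _, h.bv _ h0, by simp [mem_corners], by simp [mem_corners], by simp [mem_corners],
      by simp [mem_corners]⟩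
  · have h0 := par_hor hE p q hne
    exact ⟨_, _, h.bv _ h0, by simp [mem_corners], by simp [mem_corners], by simp [mem_corners],
      by simp [mem_corners]⟩

/-- no edge with both ends on the face: no flip -/
theorem no_cross (h : Chain P x x a b) {f f' : Pt} (hff : f' ∈ nbrs f)
    (hno : ∀ u ∈ corners f, ∀ w ∈ corners f, ¬ P u w) : par a f = par a f' := by
  by_contra hne
  obtain ⟨u, w, h1, h2, h3, -, -⟩ := cross_edge h hff hne
  exact hno u h2 w h3 h1

/-! ### free chains are constant on the wall -/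

/-- both ends unexplored, inside the polygon -/
def Fr (T : Temp) (E : Set Pt) (u w : Pt) : Prop := u ∉ SS T E ∧ w ∉ SS T E

/-- around a vertex of the wall -/
theorem fr_around (h : Chain (Fr T E) x x a b) {q : Pt} (hq : q ∈ SS T E) {f f' : Pt}
    (hf : q ∈ corners f) (hf' : q ∈ corners f') : par a f = par a f' := by
  refine par_around h.even (q := q) ?_ ?_ ?_ ?_ (mem_facesAt.2 hf) (mem_facesAt.2 hf')
  · by_contra h0
    exact (h.av _ h0).1 hq
  · by_contra h0
    have := (h.av _ h0).2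
    simp only [sub_add_cancel] at this
    exact this hq
  · by_contra h0
    exact (h.bv _ h0).1 hq
  · by_contra h0
    have := (h.bv _ h0).2
    simp only [sub_add_cancel] at this
    exact this hq

/-- adjacent vertices have a common face -/
theorem common_face {u w : Pt} (h : Adj u w) : ∃ g, u ∈ corners g ∧ w ∈ corners g := by
  have hA := mem_nbrs.2 h
  obtain ⟨p, q⟩ := u
  simp only [nbrs, mem_insert, mem_singleton] at hA
  rcases hA with rfl | rfl | rfl | rfl
  · exact ⟨(p, q), by simp [mem_corners], by simp [mem_corners]⟩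
  · exact ⟨(p - 1, q), by simp [mem_corners], by simp [mem_corners]⟩
  · exact ⟨(p, q), by simp [mem_corners], by simp [mem_corners]⟩
  · exact ⟨(p, q - 1), by simp [mem_corners], by simp [mem_corners]⟩

theorem fr_LR (h : Chain (Fr T E) x x a b) {q q' : Pt} (hq : q ∈ SS T E) (hqq : LR T E q q')
    {f f' : Pt} (hf : q ∈ corners f) (hf' : q' ∈ corners f') : par a f = par a f' := by
  unfold LR at hqq
  induction hqq generalizing f' with
  | refl => exact fr_around h hq hf hf'
  | @tail c d hc hs ih =>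
    obtain ⟨g, hg1, hg2⟩ := common_face hs.1
    exact (ih hg1).trans (fr_around h hs.2.2 hg2 hf')

/-- **a closed chain of free edges has constant parity on the old faces** -/
theorem fr_const (h : Chain (Fr T E) x x a b)
    (hconn : ∀ u ∈ SS T E, ∀ w ∈ SS T E, LR T E u w) {f f' : Pt} (hf : f ∉ OE T E)
    (hf' : f' ∉ OE T E) : par a f = par a f' := by
  obtain ⟨q, h1, h2⟩ := exists_corner hf
  obtain ⟨q', h1', h2'⟩ := exists_corner hf'
  exact fr_LR h h2 (hconn q h2 q' h2') h1 h1'

/-! ### the labels -/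

/-- edges of the wall chain: one end in the wall, or close to `z` -/
def Kw (T : Temp) (E : Set Pt) (z : Pt) (D : ℕ) (u w : Pt) : Prop :=
  u ∈ SS T E ∨ w ∈ SS T E ∨ (dn z u ≤ D ∧ dn z w ≤ D)

/-- edges of the new path: free, and either a first end in `E'` or close to `z` -/
def Nw (T : Temp) (E E' : Set Pt) (z : Pt) (D : ℕ) (u w : Pt) : Prop :=
  Fr T E u w ∧ (u ∈ E' ∨ w ∈ E' ∨ (dn z u ≤ D ∧ dn z w ≤ D))

/-- walk on the faces of `S` (the last face is arbitrary) -/
def FW (S : Set Pt) (f f' : Pt) : Prop := ReflTransGen (fun g g' => g ∈ S ∧ g' ∈ nbrs g) f f'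

/-- the free faces off the ball -/
def Off (T : Temp) (E : Set Pt) (z : Pt) (D : ℕ) : Set Pt := {f | f ∈ OE T E ∧ D + 1 < dn z f}

theorem corner_far {z f u : Pt} {D : ℕ} (h : D + 1 < dn z f) (hu : u ∈ corners f) :
    D < dn z u := by
  have h1 : dn u f ≤ 1 := by
    rw [mem_corners] at hu
    rw [H924.dn_le_iff]
    push_cast
    constructor <;> rw [abs_le] <;> omega
  have := H924.dn_triangle z u f
  omega

theorem fr_notMem (hE : E ⊆ E') {f u : Pt} (hf : f ∈ OE T E') (hu : u ∈ corners f) :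
    u ∉ SS T E ∧ u ∉ E' := by
  constructor
  · intro h
    exact notMem_OE_of hu (SS_mono hE h) hf
  · intro h
    exact hf.2 ⟨u, hu, h⟩

/-- along a face walk off the new path and off the ball the parity of `l₁ + k` is constant -/
theorem walk_const (hE : E ⊆ E') {D : ℕ}
    (h : Chain (fun u w => Kw T E z D u w ∨ Nw T E E' z D u w) x x a b) {f f' : Pt}
    (hw : FW (Off T E' z D) f f') : par a f = par a f' := by
  unfold FW at hw
  induction hw with
  | refl => rfl
  | @tail g g' _ hs ih =>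
    rw [ih]
    obtain ⟨⟨hg, hfar⟩, hgg⟩ := hs
    refine no_cross h hgg ?_
    intro u hu w hw hP
    obtain ⟨u1, u2⟩ := fr_notMem hE hg hu
    obtain ⟨w1, w2⟩ := fr_notMem hE hg hw
    have du := corner_far hfar hu
    rcases hP with (h | h | h) | ⟨_, h | h | h⟩
    · exact u1 h
    · exact w1 h
    · omega
    · exact u2 h
    · exact w2 h
    · omega

/-- **Separation (P1), walks**: old faces which are reached from the same face off the new path
and off the ball have the same label. -/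
theorem sep (hE : E ⊆ E') (hconn : ∀ u ∈ SS T E, ∀ w ∈ SS T E, LR T E u w) {D : ℕ}
    {a₀ b₀ a₁ b₁ ka kb : Pt → ZMod 2} (h₀ : Chain (Fr T E) v₁ z a₀ b₀)
    (h₁ : Chain (Nw T E E' z D) v₁ z a₁ b₁) (hk : Chain (Kw T E z D) z v₁ ka kb)
    {f w w' : Pt} (hw : w ∉ OE T E) (hw' : w' ∉ OE T E) (r : FW (Off T E' z D) f w)
    (r' : FW (Off T E' z D) f w') :
    par (fun u => a₀ u + ka u) w = par (fun u => a₀ u + ka u) w' := by
  -- the closed curve `l₀ + l₁`
  have hF : Chain (Fr T E) z z (fun u => a₀ u + a₁ u) (fun u => b₀ u + b₁ u) :=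
    h₀.symm.add (h₁.mono fun _ _ h => h.1)
  have c1 := fr_const hF hconn hw hw'
  -- the closed curve `l₁ + k`
  have hG : Chain (fun u w => Kw T E z D u w ∨ Nw T E E' z D u w) v₁ v₁
      (fun u => a₁ u + ka u) (fun u => b₁ u + kb u) :=
    (h₁.mono fun _ _ h => Or.inr h).add (hk.mono fun _ _ h => Or.inl h)
  have c2 := (walk_const hE hG r).symm.trans (walk_const hE hG r')
  obtain ⟨N0, hN0⟩ := h₀.bd
  obtain ⟨N1, hN1⟩ := h₁.bd
  obtain ⟨Nk, hNk⟩ := hk.bd
  have e1 := fun g => par_add (f := g) (fun v hv => (hN0 v hv).1) (fun v hv => (hN1 v hv).1)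
  have e2 := fun g => par_add (f := g) (fun v hv => (hN1 v hv).1) (fun v hv => (hNk v hv).1)
  have e3 := fun g => par_add (f := g) (fun v hv => (hN0 v hv).1) (fun v hv => (hNk v hv).1)
  rw [e1, e1] at c1
  rw [e2, e2] at c2
  rw [e3, e3]
  have key : ∀ p q r p' q' r' : ZMod 2, p + q = p' + q' → q + r = q' + r' → p + r = p' + r' := by
    decide
  exact key _ _ _ _ _ _ c1 c2

/-! ### potentials -/

open Classical in
/-- boundary values: `1` on the old faces with label `c`, `0` elsewhere -/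
noncomputable def bdl (T : Temp) (E : Set Pt) (π : Pt → ZMod 2) (c : ZMod 2) (f : Pt) : ℝ :=
  if f ∉ OE T E ∧ π f = c then 1 else 0

/-- `U` is harmonic on `A`, with the values `g` off `A` -/
def IsPot (A : Set Pt) (g U : Pt → ℝ) : Prop := (∀ f ∈ A, lap U f = 0) ∧ ∀ f, f ∉ A → U f = g f

theorem bdl_nonneg (π : Pt → ZMod 2) (c : ZMod 2) (f : Pt) : 0 ≤ bdl T E π c f := by
  unfold bdl; split_ifs <;> norm_num

theorem bdl_le_one (π : Pt → ZMod 2) (c : ZMod 2) (f : Pt) : bdl T E π c f ≤ 1 := by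
  unfold bdl; split_ifs <;> norm_num

theorem IsPot.nonneg {A : Set Pt} (hA : A.Finite) {g U : Pt → ℝ} (h : IsPot A g U)
    (hg : ∀ f, 0 ≤ g f) (f : Pt) : 0 ≤ U f := by
  have := G45.comparison hA (u := fun _ => 0) (v := U)
    (fun y hy => by rw [h.1 y hy]; unfold lap; norm_num) (fun y hy => by rw [h.2 y hy]; exact hg y) f
  exact this

theorem IsPot.le_one {A : Set Pt} (hA : A.Finite) {g U : Pt → ℝ} (h : IsPot A g U)
    (hg : ∀ f, g f ≤ 1) (f : Pt) : U f ≤ 1 := by
  have := G45.comparison hA (u := U) (v := fun _ => 1)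
    (fun y hy => by rw [h.1 y hy]; unfold lap; norm_num) (fun y hy => by rw [h.2 y hy]; exact hg y) f
  exact this

/-- a potential vanishes where no boundary point with a nonzero value can be reached -/
theorem IsPot.zero_of {A : Set Pt} (hA : A.Finite) {g U : Pt → ℝ} (h : IsPot A g U) {f : Pt}
    (hz : ∀ w, FW A f w → w ∉ A → g w = 0) : U f = 0 := by
  classical
  -- the component of `f`
  obtain ⟨C, hC⟩ : ∃ C : Set Pt, C = {w | FW A f w ∧ w ∈ A} := ⟨_, rfl⟩
  have hCA : C ⊆ A := by rw [hC]; exact fun _ h => h.2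
  have hCf : C.Finite := hA.subset hCA
  by_cases hfA : f ∈ A
  swap
  · rw [h.2 f hfA]
    exact hz f ReflTransGen.refl hfA
  have hstep : ∀ y ∈ C, ∀ y' ∈ nbrs y, y' ∉ C → U y' = 0 := by
    intro y hy y' hy' hn
    rw [hC] at hy hn
    have hr : FW A f y' := ReflTransGen.tail hy.1 ⟨hy.2, hy'⟩
    have hnA : y' ∉ A := fun h => hn ⟨hr, h⟩
    rw [h.2 y' hnA]
    exact hz y' hr hnA
  obtain ⟨W, hW⟩ : ∃ W : Pt → ℝ, W = fun y => if y ∈ C then U y else 0 := ⟨_, rfl⟩
  have hWe : ∀ y ∈ C, ∀ y' ∈ nbrs y, W y' = U y' := by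
    intro y hy y' hy'
    rw [hW]
    simp only
    split_ifs with hc
    · rfl
    · exact (hstep y hy y' hy' hc).symm
  have hWC : ∀ y ∈ C, W y = U y := by
    intro y hy
    rw [hW]
    simp only [if_pos hy]
  have hlap : ∀ y ∈ C, lap W y = 0 := by
    intro y hy
    have h0 := h.1 y (hCA hy)
    have m : (y.1 + 1, y.2) ∈ nbrs y ∧ (y.1 - 1, y.2) ∈ nbrs y ∧ (y.1, y.2 + 1) ∈ nbrs y ∧
        (y.1, y.2 - 1) ∈ nbrs y := by simp [nbrs]
    unfold lap at h0 ⊢
    rw [hWC y hy, hWe y hy _ m.1, hWe y hy _ m.2.1, hWe y hy _ m.2.2.1, hWe y hy _ m.2.2.2]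
    exact h0
  have h1 := G45.comparison hCf (u := W) (v := fun _ => 0)
    (fun y hy => by rw [hlap y hy]; unfold lap; norm_num)
    (fun y hy => by rw [hW]; simp only [if_neg hy]; exact le_rfl) f
  have h2 := G45.comparison hCf (u := fun _ => 0) (v := W)
    (fun y hy => by rw [hlap y hy]; unfold lap; norm_num)
    (fun y hy => by rw [hW]; simp only [if_neg hy]; exact le_rfl) f
  have hfC : f ∈ C := by rw [hC]; exact ⟨ReflTransGen.refl, hfA⟩
  rw [← hWC f hfC]
  exact le_antisymm h1 h2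

/-- the label function of the wall faces: parity of (reference chain from `v₁` to `z`) + (wall
chain from `z` to `v₁`).  It depends only on `T`, `E`, `v₁`, `z` (and on choices). -/
def Lab (T : Temp) (E : Set Pt) (v₁ z : Pt) (D : ℕ) (π : Pt → ZMod 2) : Prop :=
  ∃ a₀ b₀ ka kb : Pt → ZMod 2, Chain (Fr T E) v₁ z a₀ b₀ ∧ Chain (Kw T E z D) z v₁ ka kb ∧
    π = par (fun u => a₀ u + ka u)

theorem exists_lab {D : ℕ} (h₀ : Linked (Fr T E) v₁ z) (hk : Linked (Kw T E z D) z v₁) :
    ∃ π, Lab T E v₁ z D π := by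
  obtain ⟨a₀, b₀, h₀⟩ := h₀
  obtain ⟨ka, kb, hk⟩ := hk
  exact ⟨_, a₀, b₀, ka, kb, h₀, hk, rfl⟩

/-- the wall chain exists as soon as the wall comes into the ball around `z` -/
theorem linked_wall (hconn : ∀ u ∈ SS T E, ∀ w ∈ SS T E, LR T E u w) {D : ℕ} {q g : Pt}
    (hq : q ∈ SS T E) (hqz : dn z q ≤ D) (hg : g ∈ SS T E) (hgv : Adj g v₁) :
    Linked (Kw T E z D) z v₁ := by
  have h1 : Linked (Kw T E z D) q z :=
    (gap' z q).mono (fun u w h => Or.inr (Or.inr ⟨h.1.trans hqz, h.2.trans hqz⟩))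
  have h2 : Linked (Kw T E z D) q g :=
    (hconn q hq g hg).linked (fun u w hu _ => Or.inl hu)
  have h3 : Linked (Kw T E z D) g v₁ :=
    Linked.edge hgv (Or.inl hg) (Or.inr (Or.inl hg))
  exact (h1.symm.trans h2).trans h3

/-- the free ball around `z`: unexplored vertices which are joined to `z` inside `box z D` by
unexplored vertices -/
def FB (T : Temp) (E : Set Pt) (z : Pt) (D : ℕ) : Set Pt :=
  {u | ReflTransGen (fun p q => Adj p q ∧ Fr T E p q ∧ dn z p ≤ D ∧ dn z q ≤ D) z u}

theorem FB.linked {D : ℕ} {u : Pt} (h : u ∈ FB T E z D) :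
    Linked (fun p q => Fr T E p q ∧ dn z p ≤ D ∧ dn z q ≤ D) z u := by
  have h' : ReflTransGen (fun p q => Adj p q ∧ Fr T E p q ∧ dn z p ≤ D ∧ dn z q ≤ D) z u := h
  clear h
  induction h' with
  | refl => exact Linked.refl _ _
  | tail _ h ih =>
    exact ih.trans (Linked.edge h.1 h.2 ⟨⟨h.2.1.2, h.2.1.1⟩, h.2.2.2, h.2.2.1⟩)

/-- the new path `v 0 = v₁, …, v M`, continued in the free ball to `z` -/
theorem linked_path {D M : ℕ} {v : ℕ → Pt} (hadj : ∀ i < M, Adj (v i) (v (i + 1)))
    (hS : ∀ i ≤ M, v i ∉ SS T E) (hE' : ∀ i ≤ M, v i ∈ E') (hM : v M ∈ FB T E z D) :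
    Linked (Nw T E E' z D) (v 0) z := by
  have h1 : Linked (Nw T E E' z D) (v 0) (v M) := by
    obtain h := path_chain hadj
    refine ⟨_, _, h.mono ?_⟩
    rintro u w ⟨i, hi, ⟨rfl, rfl⟩ | ⟨rfl, rfl⟩⟩
    · exact ⟨⟨hS i hi.le, hS (i + 1) hi⟩, Or.inl (hE' i hi.le)⟩
    · exact ⟨⟨hS (i + 1) hi, hS i hi.le⟩, Or.inl (hE' (i + 1) hi)⟩
  have h2 : Linked (Nw T E E' z D) z (v M) :=
    (FB.linked hM).mono (fun p q h => ⟨h.1, Or.inr (Or.inr h.2)⟩)
  exact h1.trans h2.symm

theorem FW.mono {S S' : Set Pt} (h : S ⊆ S') {f f' : Pt} (hw : FW S f f') : FW S' f f' := by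
  unfold FW at hw ⊢
  exact Relation.ReflTransGen.mono (p := fun g g' => g ∈ S' ∧ g' ∈ nbrs g)
    (fun _ _ hs => ⟨h hs.1, hs.2⟩) f f' hw

/-- **Separation (P1), walks**, with the label function -/
theorem Lab.sep (hE : E ⊆ E') (hconn : ∀ u ∈ SS T E, ∀ w ∈ SS T E, LR T E u w) {D : ℕ}
    {π : Pt → ZMod 2} (hπ : Lab T E v₁ z D π) (hnew : Linked (Nw T E E' z D) v₁ z)
    {f w w' : Pt} (hw : w ∉ OE T E) (hw' : w' ∉ OE T E) (r : FW (Off T E' z D) f w)
    (r' : FW (Off T E' z D) f w') : π w = π w' := by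
  obtain ⟨a₀, b₀, ka, kb, h₀, hk, rfl⟩ := hπ
  obtain ⟨a₁, b₁, h₁⟩ := hnew
  exact NT862.sep hE hconn h₀ h₁ hk hw hw' r r'

open Classical in
/-- the faces of `O'` touched by the new path -/
noncomputable def hitb (T : Temp) (O' E' : Set Pt) (f : Pt) : ℝ :=
  if f ∈ O' ∧ f ∉ OE T E' then 1 else 0

theorem exists_pot {A : Set Pt} (hA : A.Finite) (g : Pt → ℝ) : ∃ U, IsPot A g U := by
  obtain ⟨u, hu⟩ := G45.exists_green hA (fun x => lap g x)
  refine ⟨fun x => u x + g x, ?_, ?_⟩
  · intro f hf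
    rw [G45.lap_add]
    have := hu.eq f hf
    linarith
  · intro f hf
    simp only
    rw [hu.off f hf, zero_add]

/-- **Separation (P1), potentials**: `O'` = a finite set of free faces off the ball.  `U₀`, `U₁` =
probability that the walk leaves `O'` at an old face with label `0`, `1`; `Hit` = probability that
the walk meets a face touched by the new path before it leaves `O'`.  Then
`min(U₀, U₁) ≤ Hit`. -/
theorem sep_pot (hE : E ⊆ E') (hconn : ∀ u ∈ SS T E, ∀ w ∈ SS T E, LR T E u w) {D : ℕ}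
    {π : Pt → ZMod 2} (hπ : Lab T E v₁ z D π) (hnew : Linked (Nw T E E' z D) v₁ z)
    {O' : Set Pt} (hO' : ∀ f ∈ O', f ∈ OE T E ∧ D + 1 < dn z f) (hfin : O'.Finite)
    {U₀ U₁ Hit : Pt → ℝ} (hU₀ : IsPot O' (bdl T E π 0) U₀) (hU₁ : IsPot O' (bdl T E π 1) U₁)
    (hH : IsPot (O' ∩ OE T E') (hitb T O' E') Hit) (f : Pt) : min (U₀ f) (U₁ f) ≤ Hit f := by
  classical
  have hA' : (O' ∩ OE T E').Finite := hfin.subset Set.inter_subset_left
  have hH0 : ∀ g, 0 ≤ Hit g := hH.nonneg hA' (fun g => by unfold hitb; split_ifs <;> norm_num)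
  -- the potentials killed at the new path
  have main : ∀ (c : ZMod 2) (U : Pt → ℝ), IsPot O' (bdl T E π c) U →
      (∀ w, FW (O' ∩ OE T E') f w → w ∉ OE T E → π w ≠ c) → U f ≤ Hit f := by
    intro c U hU hno
    obtain ⟨V, hV⟩ := exists_pot hA' (bdl T E π c)
    have hVf : V f = 0 := by
      refine hV.zero_of hA' ?_
      intro w hw hwA
      unfold bdl
      rw [if_neg]
      rintro ⟨h1, h2⟩
      exact hno w hw h1 h2
    have hcmp := G45.comparison hA' (u := fun g => U g - V g) (v := Hit)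
      (fun g hg => by rw [hH.1 g hg, G45.lap_sub, hU.1 g hg.1, hV.1 g hg]; norm_num)
      (fun g hg => by
        rw [hV.2 g hg]
        by_cases hgA : g ∈ O'
        · have h1 : g ∉ OE T E' := fun h => hg ⟨hgA, h⟩
          have h2 : Hit g = 1 := by rw [hH.2 g hg]; unfold hitb; rw [if_pos ⟨hgA, h1⟩]
          rw [h2]
          have := hU.le_one hfin (bdl_le_one π c) g
          have := bdl_nonneg (T := T) (E := E) π c g
          linarith
        · rw [hU.2 g hgA, sub_self]
          exact hH0 g) f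
    simp only [hVf, sub_zero] at hcmp
    exact hcmp
  -- one of the two labels is not reached
  have hoff : ∀ w, FW (O' ∩ OE T E') f w → FW (Off T E' z D) f w := fun w hw =>
    FW.mono (show O' ∩ OE T E' ⊆ Off T E' z D from fun g hg => ⟨hg.2, (hO' g hg.1).2⟩) hw
  by_cases hex : ∃ w, FW (O' ∩ OE T E') f w ∧ w ∉ OE T E ∧ π w = 0
  · obtain ⟨w, hw, hw1, hw2⟩ := hex
    refine (min_le_right _ _).trans (main 1 U₁ hU₁ ?_)
    intro w' hw' hw1' h1
    have := hπ.sep hE hconn hnew hw1 hw1' (hoff w hw) (hoff w' hw')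
    rw [hw2, h1] at this
    exact absurd this (by decide)
  · push Not at hex
    exact (min_le_left _ _).trans (main 0 U₀ hU₀ (fun w hw hw1 => hex w hw hw1))

end Vale.Agent.P155.NT862
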