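import Vale.Agent.P155.NT862.Ray

/-!
# P155, NT862: the divergence formula mod 2 for the ring
-/

namespace Vale.Agent.P155.NT862

open Vale.Agent.P155 T802 Finset NT Relation NT733

theorem tele_Ioc (g : ℤ → ZMod 2) (c : ℤ) (n : ℕ) :
    ∑ y ∈ Ioc c (c + n), (g y + g (y - 1)) = g (c + n) + g c := by
  induction n with
  | zero => simp [z2]
  | succ n ih =>
    have e : Ioc c (c + ((n + 1 : ℕ) : ℤ)) = insert (c + n + 1) (Ioc c (c + n)) := by
      ext y; simp only [mem_Ioc, mem_insert]; push_cast; omega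
    rw [e, sum_insert (by simp), ih, show c + (n : ℤ) + 1 - 1 = c + n by ring,
      show c + ((n + 1 : ℕ) : ℤ) = c + n + 1 by push_cast; ring]
    have : ∀ p q r : ZMod 2, p + q + (q + r) = p + r := by decide
    exact this _ _ _

theorem sum_up (g : ℤ → ZMod 2) (c : ℤ) (n : ℕ) :
    ∑ t ∈ range n, g (c + t + 1) = ∑ y ∈ Ioc c (c + n), g y := by
  induction n with
  | zero => simp
  | succ n ih =>
    have e : Ioc c (c + ((n + 1 : ℕ) : ℤ)) = insert (c + n + 1) (Ioc c (c + n)) := by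
      ext y; simp only [mem_Ioc, mem_insert]; push_cast; omega
    rw [e, sum_insert (by simp), sum_range_succ, ih, add_comm]

theorem sum_down (g : ℤ → ZMod 2) (c : ℤ) (n : ℕ) :
    ∑ t ∈ range n, g (c + n - t) = ∑ y ∈ Ioc c (c + n), g y := by
  rw [← sum_up g c n, ← sum_range_reflect]
  apply sum_congr rfl
  intro t ht
  rw [mem_range] at ht
  congr 1
  have : ((n - 1 - t : ℕ) : ℤ) = n - 1 - t := by omega
  rw [this]; ring

/-- the vertices inside the ring -/
noncomputable def Wb (z : Pt) (s : ℕ) : Finset Pt :=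
  Ioc (z.1 - s) (z.1 - s + (2 * s : ℕ)) ×ˢ Ioc (z.2 - s) (z.2 - s + (2 * s : ℕ))

theorem mem_Wb {z v : Pt} {s : ℕ} : v ∈ Wb z s ↔ Win z s v := by
  unfold Wb Win
  rw [mem_product, mem_Ioc, mem_Ioc]
  push_cast
  omega

/-- **divergence formula** -/
theorem ring_div (a b : Pt → ZMod 2) (z : Pt) (s : ℕ) :
    ∑ t ∈ range (8 * s), co a b z s t =
      ∑ v ∈ Wb z s, (a v + a (v.1, v.2 - 1) + b v + b (v.1 - 1, v.2)) := by
  -- right-hand side
  have hR : ∑ v ∈ Wb z s, (a v + a (v.1, v.2 - 1) + b v + b (v.1 - 1, v.2)) =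
      ∑ x ∈ Ioc (z.1 - s) (z.1 - s + (2 * s : ℕ)), (a (x, z.2 - s + (2 * s : ℕ)) + a (x, z.2 - s)) +
      ∑ y ∈ Ioc (z.2 - s) (z.2 - s + (2 * s : ℕ)),
        (b (z.1 - s + (2 * s : ℕ), y) + b (z.1 - s, y)) := by
    have e1 : ∑ v ∈ Wb z s, (a v + a (v.1, v.2 - 1) + b v + b (v.1 - 1, v.2)) =
        ∑ v ∈ Wb z s, (a v + a (v.1, v.2 - 1)) + ∑ v ∈ Wb z s, (b v + b (v.1 - 1, v.2)) := by
      rw [← sum_add_distrib]
      exact sum_congr rfl fun v _ => by ring
    rw [e1]
    congr 1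
    · unfold Wb
      rw [sum_product]
      apply sum_congr rfl
      intro x _
      exact tele_Ioc (fun y => a (x, y)) (z.2 - s) (2 * s)
    · unfold Wb
      rw [sum_product_right]
      apply sum_congr rfl
      intro y _
      exact tele_Ioc (fun x => b (x, y)) (z.1 - s) (2 * s)
  rw [hR, sum_add_distrib, sum_add_distrib]
  -- left-hand side
  rw [show 8 * s = 2 * s + (2 * s + (2 * s + 2 * s)) by ring, sum_range_add, sum_range_add,
    sum_range_add]
  have s1 : ∑ t ∈ range (2 * s), co a b z s ((t : ℕ) : ℤ) =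
      ∑ y ∈ Ioc (z.2 - s) (z.2 - s + (2 * s : ℕ)), b (z.1 - s + (2 * s : ℕ), y) := by
    rw [← sum_up (fun y => b (z.1 - s + (2 * s : ℕ), y))]
    apply sum_congr rfl
    intro t ht
    rw [mem_range] at ht
    unfold co wi
    rw [if_pos (by omega), if_pos (by omega)]
    congr 1
    refine Prod.ext ?_ ?_ <;> dsimp only <;> push_cast <;> ring
  have s2 : ∑ t ∈ range (2 * s), co a b z s ((2 * s + t : ℕ) : ℤ) =
      ∑ x ∈ Ioc (z.1 - s) (z.1 - s + (2 * s : ℕ)), a (x, z.2 - s + (2 * s : ℕ)) := by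
    rw [← sum_down (fun x => a (x, z.2 - s + (2 * s : ℕ)))]
    apply sum_congr rfl
    intro t ht
    rw [mem_range] at ht
    unfold co wi
    rw [if_neg (by omega), if_pos (by omega), if_neg (by omega), if_pos (by omega)]
    congr 1
    refine Prod.ext ?_ ?_ <;> dsimp only <;> push_cast <;> ring
  have s3 : ∑ t ∈ range (2 * s), co a b z s ((2 * s + (2 * s + t) : ℕ) : ℤ) =
      ∑ y ∈ Ioc (z.2 - s) (z.2 - s + (2 * s : ℕ)), b (z.1 - s, y) := by
    rw [← sum_down (fun y => b (z.1 - s, y))]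
    apply sum_congr rfl
    intro t ht
    rw [mem_range] at ht
    unfold co wo
    rw [if_neg (by omega), if_neg (by omega), if_pos (by omega), if_neg (by omega),
      if_neg (by omega), if_pos (by omega)]
    congr 1
    refine Prod.ext ?_ ?_ <;> dsimp only <;> push_cast <;> ring
  have s4 : ∑ t ∈ range (2 * s), co a b z s ((2 * s + (2 * s + (2 * s + t)) : ℕ) : ℤ) =
      ∑ x ∈ Ioc (z.1 - s) (z.1 - s + (2 * s : ℕ)), a (x, z.2 - s) := by
    rw [← sum_up (fun x => a (x, z.2 - s))]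
    apply sum_congr rfl
    intro t ht
    rw [mem_range] at ht
    unfold co wo
    rw [if_neg (by omega), if_neg (by omega), if_neg (by omega), if_neg (by omega),
      if_neg (by omega), if_neg (by omega)]
    congr 1
    refine Prod.ext ?_ ?_ <;> dsimp only <;> push_cast <;> ring
  rw [s1, s2, s3, s4]
  ring

end Vale.Agent.P155.NT862
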