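import Vale.Agent.P155.NT862.Bal
import Vale.Agent.P155.NT862.Div

/-!
# P155, NT862: the balanced face in the component of `z`
-/

namespace Vale.Agent.P155.NT862

open Vale.Agent.P155 T802 Finset NT Relation NT733

variable {T : Temp} {E : Set Pt} {z v₁ : Pt} {D s : ℕ}

theorem FB.self {N : ℕ} : z ∈ FB T E z N := ReflTransGen.refl

theorem FB.tail {N : ℕ} {u w : Pt} (hu : u ∈ FB T E z N) (h : Adj u w) (hf : Fr T E u w)
    (h1 : dn z u ≤ N) (h2 : dn z w ≤ N) : w ∈ FB T E z N :=
  ReflTransGen.tail (r := fun p q => Adj p q ∧ Fr T E p q ∧ dn z p ≤ N ∧ dn z q ≤ N) hu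
    ⟨h, hf, h1, h2⟩

theorem FB.free {N : ℕ} (hz : z ∉ SS T E) {u : Pt} (hu : u ∈ FB T E z N) :
    u ∉ SS T E ∧ dn z u ≤ N := by
  have h' : ReflTransGen (fun p q => Adj p q ∧ Fr T E p q ∧ dn z p ≤ N ∧ dn z q ≤ N) z u := hu
  clear hu
  induction h' with
  | refl => exact ⟨hz, by simp [dn, dinf]⟩
  | tail _ h _ => exact ⟨h.2.1.2, h.2.2.2⟩

theorem FB.mono {N N' : ℕ} (h : N ≤ N') : FB T E z N ⊆ FB T E z N' := fun _ hu =>
  Relation.ReflTransGen.mono (p := fun p q => Adj p q ∧ Fr T E p q ∧ dn z p ≤ N' ∧ dn z q ≤ N')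
    (fun _ _ h' => ⟨h'.1, h'.2.1, h'.2.2.1.trans h, h'.2.2.2.trans h⟩) _ _ hu

/-- all corners of a free face belong to the free ball if one does -/
theorem FB.face {N : ℕ} {f u u' : Pt} (hf : f ∈ OE T E) (hd : dn z f + 1 ≤ N) (hu : u ∈ corners f)
    (hu' : u' ∈ corners f) (h : u ∈ FB T E z N) : u' ∈ FB T E z N := by
  have hfree : ∀ p ∈ corners f, p ∉ SS T E ∧ dn z p ≤ N := fun p hp =>
    ⟨fun hS => notMem_OE_of hp hS hf, (corner_near hp).trans hd⟩
  have hc : (u'.1, u.2) ∈ corners f := by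
    rw [mem_corners] at hu hu' ⊢
    exact ⟨hu'.1, hu.2⟩
  have h1 : (u'.1, u.2) ∈ FB T E z N := by
    by_cases he : u'.1 = u.1
    · rw [he]; exact h
    · refine FB.tail h ?_ ⟨(hfree u hu).1, (hfree _ hc).1⟩ (hfree u hu).2 (hfree _ hc).2
      rw [adj_iff']
      rw [mem_corners] at hu hu'
      dsimp only
      omega
  by_cases he : u'.2 = u.2
  · have : u' = (u'.1, u.2) := by rw [← he]
    rw [this]; exact h1
  · refine FB.tail h1 ?_ ⟨(hfree _ hc).1, (hfree _ hu').1⟩ (hfree _ hc).2 (hfree _ hu').2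
    rw [adj_iff']
    rw [mem_corners] at hu hu'
    dsimp only
    omega

open Classical in
/-- **the labels change along the ring, in the component of `z`** -/
theorem ring_jump2 {π : Pt → ZMod 2} (hπ : Lab T E v₁ z D π) (hz : z ∉ SS T E) (hs : D + 1 < s)
    (hv : s + 1 < dn z v₁) {m : Pt → ZMod 2} (hm : ∀ f, dn z f = s → f ∉ OE T E → m f = π f) :
    ∃ f f', dn z f = s ∧ dn z f' = s ∧ f' ∈ nbrs f ∧ f ∈ nbrs f' ∧ m f ≠ m f' ∧
      ∀ u ∈ corners f, u ∈ corners f' → u ∈ FB T E z (s + 1) := by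
  obtain ⟨a₀, b₀, ka, kb, h₀, hk, rfl⟩ := hπ
  by_contra hcon
  push Not at hcon
  obtain ⟨π, hπ⟩ : ∃ π : Pt → ZMod 2, π = par (fun u => a₀ u + ka u) := ⟨_, rfl⟩
  rw [← hπ] at hm
  have hs1 : 1 ≤ s := by omega
  have hEv0 : EvenSet (fun u => a₀ u + ka u) (fun u => b₀ u + kb u) :=
    ((h₀.mono (Q := fun _ _ => True) fun _ _ _ => trivial).add
      (hk.mono fun _ _ _ => trivial)).even
  obtain ⟨B, hB⟩ : ∃ B : Set Pt, B = FB T E z (s + 1) := ⟨_, rfl⟩
  have hBfree : ∀ u ∈ B, u ∉ SS T E ∧ dn z u ≤ s + 1 := by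
    rw [hB]; exact fun u hu => FB.free hz hu
  -- the restricted chain
  obtain ⟨a, ha⟩ : ∃ a : Pt → ZMod 2,
    a = fun v => if v ∈ B ∧ (v.1, v.2 + 1) ∈ B then a₀ v else 0 := ⟨_, rfl⟩
  obtain ⟨b, hb⟩ : ∃ b : Pt → ZMod 2,
    b = fun v => if v ∈ B ∧ (v.1 + 1, v.2) ∈ B then b₀ v else 0 := ⟨_, rfl⟩
  have hBtail : ∀ u w, u ∈ B → Adj u w → w ∉ SS T E → dn z w ≤ s + 1 → w ∈ B := by
    intro u w hu hadj hw hd
    have h1 := hBfree u hu
    rw [hB] at hu ⊢
    exact FB.tail hu hadj ⟨h1.1, hw⟩ h1.2 hd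
  -- the divergence of the restricted chain inside the ring
  have hin : ∀ v, Win z s v → ∀ w, Adj v w → dn z v ≤ s + 1 ∧ dn z w ≤ s + 1 := by
    intro v hv w hw
    rw [dn_le_iff', dn_le_iff']
    rw [adj_iff'] at hw
    unfold Win at hv
    push_cast
    omega
  have hdiv : ∀ v, Win z s v → a v + a (v.1, v.2 - 1) + b v + b (v.1 - 1, v.2) =
      ind (v = z) := by
    intro v hv
    have hbd := h₀.bdr v
    have hv1 : v ≠ v₁ := by
      intro he
      have := (hin v hv (v.1 + 1, v.2) (by rw [adj_iff']; dsimp only; omega)).1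
      rw [he] at this
      omega
    rw [ind_false hv1, zero_add] at hbd
    have n1 : Adj v (v.1, v.2 + 1) := by rw [adj_iff']; dsimp only; omega
    have n2 : Adj v (v.1, v.2 - 1) := by rw [adj_iff']; dsimp only; omega
    have n3 : Adj v (v.1 + 1, v.2) := by rw [adj_iff']; dsimp only; omega
    have n4 : Adj v (v.1 - 1, v.2) := by rw [adj_iff']; dsimp only; omega
    by_cases hvB : v ∈ B
    · -- all free edges at `v` belong to `B`
      have g1 : a v = a₀ v := by
        rw [ha]; simp only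
        by_cases h : a₀ v = 0
        · rw [h]; split_ifs <;> rfl
        · rw [if_pos ⟨hvB, hBtail v _ hvB n1 (h₀.av v h).2 (hin v hv _ n1).2⟩]
      have g2 : a (v.1, v.2 - 1) = a₀ (v.1, v.2 - 1) := by
        rw [ha]; simp only [sub_add_cancel]
        by_cases h : a₀ (v.1, v.2 - 1) = 0
        · rw [h]; split_ifs <;> rfl
        · rw [if_pos ⟨hBtail v _ hvB n2 (h₀.av _ h).1 (hin v hv _ n2).2, hvB⟩]
      have g3 : b v = b₀ v := by
        rw [hb]; simp only
        by_cases h : b₀ v = 0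
        · rw [h]; split_ifs <;> rfl
        · rw [if_pos ⟨hvB, hBtail v _ hvB n3 (h₀.bv v h).2 (hin v hv _ n3).2⟩]
      have g4 : b (v.1 - 1, v.2) = b₀ (v.1 - 1, v.2) := by
        rw [hb]; simp only [sub_add_cancel]
        by_cases h : b₀ (v.1 - 1, v.2) = 0
        · rw [h]; split_ifs <;> rfl
        · rw [if_pos ⟨hBtail v _ hvB n4 (h₀.bv _ h).1 (hin v hv _ n4).2, hvB⟩]
      rw [g1, g2, g3, g4, hbd]
    · have hzv : v ≠ z := by
        rintro rfl
        apply hvB
        rw [hB]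
        exact FB.self
      rw [ha, hb]
      simp only [sub_add_cancel]
      rw [if_neg (fun h => hvB h.1), if_neg (fun h => hvB h.2), if_neg (fun h => hvB h.1),
        if_neg (fun h => hvB h.2), ind_false hzv]
      simp
  have htot : ∑ t ∈ range (8 * s), co a b z s t = 1 := by
    rw [ring_div]
    rw [sum_congr rfl (fun v hv => hdiv v (mem_Wb.1 hv))]
    have hzW : z ∈ Wb z s := by
      rw [mem_Wb]; unfold Win; omega
    rw [sum_eq_single_of_mem z hzW (fun v _ hne => ind_false hne), ind_true rfl]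
  -- the function on the ring
  obtain ⟨Ψ, hΨ⟩ : ∃ Ψ : Pt → ZMod 2,
    Ψ = fun f => if ∃ u ∈ corners f, u ∈ B then π f + m f else 0 := ⟨_, rfl⟩
  have step : ∀ t : ℤ, 0 ≤ t → t < 8 * s →
      Ψ (rp z s (t + 1)) = Ψ (rp z s t) + co a b z s t := by
    intro t h0 h1
    have d0 : dn z (rp z s t) = s := rp_dn h0 h1.le
    have d1 : dn z (rp z s (t + 1)) = s := rp_dn (by omega) (by omega)
    have hn : rp z s (t + 1) ∈ nbrs (rp z s t) := rp_step h0 h1
    have hn' : rp z s t ∈ nbrs (rp z s (t + 1)) := nbrs_comm.1 hn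
    obtain ⟨⟨c1, c2⟩, ⟨c3, c4⟩⟩ := ring_vert (z := z) h0 h1
    have hadj : Adj (wi z s t) (wo z s t) := by
      rw [adj_iff']
      unfold wi wo
      split_ifs <;> dsimp only <;> omega
    by_cases hcl : wi z s t ∈ B ∧ wo z s t ∈ B
    · -- a step inside the class
      have e0 : Ψ (rp z s t) = π (rp z s t) + m (rp z s t) := by
        rw [hΨ]; simp only; rw [if_pos ⟨_, c1, hcl.1⟩]
      have e1 : Ψ (rp z s (t + 1)) = π (rp z s (t + 1)) + m (rp z s (t + 1)) := by
        rw [hΨ]; simp only; rw [if_pos ⟨_, c2, hcl.1⟩]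
      have em : m (rp z s t) = m (rp z s (t + 1)) := by
        by_contra hne
        obtain ⟨u, hu1, hu2, hu3⟩ := hcon _ _ d0 d1 hn hn' hne
        rcases (ring_corner h0 h1).1 ⟨hu1, hu2⟩ with rfl | rfl
        · rw [hB] at hcl; exact hu3 hcl.1
        · rw [hB] at hcl; exact hu3 hcl.2
      have e2 : π (rp z s (t + 1)) = π (rp z s t) + (co a₀ b₀ z s t + co ka kb z s t) := by
        rw [hπ, co_spec hEv0 z h0 h1, ← co_add]
      have e3 : co ka kb z s t = 0 := by
        by_contra hne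
        have f1 : D < dn z (wi z s t) := corner_far (by rw [d0]; exact hs) c1
        rcases co_ne (P := Kw T E z D) hk.av hk.bv z h0 h1 hne with h | h
        · rcases h with h | h | h
          · exact (hBfree _ hcl.1).1 h
          · exact (hBfree _ hcl.2).1 h
          · omega
        · rcases h with h | h | h
          · exact (hBfree _ hcl.2).1 h
          · exact (hBfree _ hcl.1).1 h
          · omega
      have e4 : co a b z s t = co a₀ b₀ z s t := by
        rw [ha, hb]
        have hw : ∀ u w, (u = wi z s t ∧ w = wo z s t) ∨ (u = wo z s t ∧ w = wi z s t) →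
            u ∈ B ∧ w ∈ B := by
          rintro u w (⟨rfl, rfl⟩ | ⟨rfl, rfl⟩)
          · exact hcl
          · exact ⟨hcl.2, hcl.1⟩
        unfold co
        by_cases q1 : t < 2 * s
        · rw [if_pos q1, if_pos q1]
          simp only
          rw [if_pos (hw _ _ (Or.inl ⟨rfl, by unfold wi wo; rw [if_pos q1, if_pos q1]⟩))]
        · rw [if_neg q1, if_neg q1]
          by_cases q2 : t < 4 * s
          · rw [if_pos q2, if_pos q2]
            simp only
            rw [if_pos (hw _ _ (Or.inl ⟨rfl, by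
              unfold wi wo; rw [if_neg q1, if_pos q2, if_neg q1, if_pos q2]⟩))]
          · rw [if_neg q2, if_neg q2]
            by_cases q3 : t < 6 * s
            · rw [if_pos q3, if_pos q3]
              simp only
              rw [if_pos (hw _ _ (Or.inr ⟨rfl, by
                unfold wi wo
                rw [if_neg q1, if_neg q2, if_pos q3, if_neg q1, if_neg q2, if_pos q3]⟩))]
            · rw [if_neg q3, if_neg q3]
              simp only
              rw [if_pos (hw _ _ (Or.inr ⟨rfl, by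
                unfold wi wo
                rw [if_neg q1, if_neg q2, if_neg q3, if_neg q1, if_neg q2, if_neg q3]⟩))]
      rw [e0, e1, e2, e3, e4, em]
      have : ∀ p q r : ZMod 2, p + (q + 0) + r = p + r + q := by decide
      exact this _ _ _
    · -- a step outside the class
      have e4 : co a b z s t = 0 := by
        by_contra hne
        have hav : ∀ v : Pt, a v ≠ 0 → v ∈ B ∧ (v.1, v.2 + 1) ∈ B := by
          intro v hv
          rw [ha] at hv
          by_contra hn
          exact hv (if_neg hn)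
        have hbv : ∀ v : Pt, b v ≠ 0 → v ∈ B ∧ (v.1 + 1, v.2) ∈ B := by
          intro v hv
          rw [hb] at hv
          by_contra hn
          exact hv (if_neg hn)
        rcases co_ne (P := fun u w => u ∈ B ∧ w ∈ B) hav hbv z h0 h1 hne with h | h
        · exact hcl h
        · exact hcl ⟨h.2, h.1⟩
      have hzero : ∀ f, dn z f = s → wi z s t ∈ corners f → wo z s t ∈ corners f → Ψ f = 0 := by
        intro f df f1 f2
        rw [hΨ]
        simp only
        split_ifs with hex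
        swap
        · rfl
        by_cases hf : f ∈ OE T E
        · exfalso
          obtain ⟨u, hu, huB⟩ := hex
          apply hcl
          rw [hB] at huB ⊢
          exact ⟨FB.face hf (by omega) hu f1 huB, FB.face hf (by omega) hu f2 huB⟩
        · rw [hm f df hf, z2]
      rw [hzero _ d0 c1 c3, hzero _ d1 c2 c4, e4, add_zero]
  have key : ∀ n : ℕ, n ≤ 8 * s → Ψ (rp z s n) = Ψ (rp z s 0) + ∑ t ∈ range n, co a b z s t := by
    intro n
    induction n with
    | zero => intro _; simp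
    | succ n ih =>
      intro hn
      rw [sum_range_succ, ← add_assoc, ← ih (by omega),
        show ((n + 1 : ℕ) : ℤ) = (n : ℤ) + 1 by push_cast; rfl]
      exact step n (by positivity) (by omega)
  have h8 := key (8 * s) le_rfl
  rw [show ((8 * s : ℕ) : ℤ) = 8 * (s : ℤ) by push_cast; rfl, rp_end, htot] at h8
  have : ∀ p : ZMod 2, ¬ (p = p + 1) := by decide
  exact this _ h8

open Classical in
/-- **the balanced face, in the component of `z`**: it is joined to `z` by free vertices inside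
`box z (s + 1)`.  The lower bound for `U₀ + U₁` is needed only for the free faces of the ring in
the component of `z`. -/
theorem bal2 {π : Pt → ZMod 2} (hπ : Lab T E v₁ z D π) (hz : z ∉ SS T E) (hs : D + 1 < s)
    (hv : s + 1 < dn z v₁) {O' : Set Pt} (hO' : O' ⊆ OE T E) (hfin : O'.Finite)
    (hring : ∀ f, dn z f = s → f ∈ OE T E → (∀ u ∈ corners f, u ∈ FB T E z (s + 1)) → f ∈ O')
    {U₀ U₁ : Pt → ℝ}
    (hU₀ : IsPot O' (bdl T E π 0) U₀) (hU₁ : IsPot O' (bdl T E π 1) U₁)
    (hsum : ∀ f, dn z f = s → f ∈ OE T E → (∀ u ∈ corners f, u ∈ FB T E z (s + 1)) →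
      1 / 2 ≤ U₀ f + U₁ f) :
    (∃ x, dn z x = s ∧ x ∈ OE T E ∧ (∀ u ∈ corners x, u ∈ FB T E z (s + 1)) ∧
      1 / 16 ≤ U₀ x ∧ 1 / 16 ≤ U₁ x) ∨
      ∃ x x', dn z x = s ∧ dn z x' = s ∧ x' ∈ nbrs x ∧ x ∉ OE T E ∧ x' ∉ OE T E ∧ π x ≠ π x' ∧
        ∀ u ∈ corners x, u ∈ corners x' → u ∈ FB T E z (s + 1) := by
  have n0 := hU₀.nonneg hfin (bdl_nonneg π 0)
  have n1 := hU₁.nonneg hfin (bdl_nonneg π 1)
  have old0 : ∀ f, f ∉ OE T E → U₀ f = if π f = 0 then 1 else 0 := by
    intro f hf
    rw [hU₀.2 f (fun h => hf (hO' h))]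
    unfold bdl
    exact if_congr (by simp [hf]) rfl rfl
  have old1 : ∀ f, f ∉ OE T E → U₁ f = if π f = 1 then 1 else 0 := by
    intro f hf
    rw [hU₁.2 f (fun h => hf (hO' h))]
    unfold bdl
    exact if_congr (by simp [hf]) rfl rfl
  obtain ⟨m, hm⟩ : ∃ m : Pt → ZMod 2, m = fun f => if 1 / 4 ≤ U₀ f then 0 else 1 := ⟨_, rfl⟩
  have hmo : ∀ f, dn z f = s → f ∉ OE T E → m f = π f := by
    intro f _ hf
    rw [hm]
    simp only
    rw [old0 f hf]
    by_cases h : π f = 0
    · rw [if_pos h, if_pos (by norm_num), h]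
    · rw [if_neg h, if_neg (by norm_num), z2_ne_zero _ h]
  obtain ⟨f, f', df, df', hff, hff', hne, hB⟩ := ring_jump2 hπ hz hs hv hmo
  by_cases hold : f ∉ OE T E ∧ f' ∉ OE T E
  · right
    refine ⟨f, f', df, df', hff, hold.1, hold.2, ?_, hB⟩
    rw [← hmo f df hold.1, ← hmo f' df' hold.2]
    exact hne
  have hfree : f ∈ OE T E ∨ f' ∈ OE T E := by tauto
  left
  -- a common corner
  obtain ⟨u, hu, hu'⟩ : ∃ u, u ∈ corners f ∧ u ∈ corners f' := by
    obtain ⟨p, q⟩ := f
    simp only [nbrs, mem_insert, mem_singleton] at hff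
    rcases hff with rfl | rfl | rfl | rfl
    · exact ⟨(p + 1, q), by simp [mem_corners], by simp [mem_corners]⟩
    · exact ⟨(p, q), by simp [mem_corners], by simp [mem_corners]⟩
    · exact ⟨(p, q + 1), by simp [mem_corners], by simp [mem_corners]⟩
    · exact ⟨(p, q), by simp [mem_corners], by simp [mem_corners]⟩
  have huB := hB u hu hu'
  have cls : ∀ g, dn z g = s → g ∈ OE T E → u ∈ corners g →
      ∀ u' ∈ corners g, u' ∈ FB T E z (s + 1) := fun g dg hg hug u' hu' =>
    FB.face hg (by omega) hug hu' huB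
  -- a symmetric statement
  have main : ∀ g g', dn z g = s → dn z g' = s → g' ∈ nbrs g → g ∈ nbrs g' → u ∈ corners g →
      u ∈ corners g' → (g ∈ OE T E ∨ g' ∈ OE T E) → 1 / 4 ≤ U₀ g → ¬ (1 / 4 ≤ U₀ g') →
      ∃ x, dn z x = s ∧ x ∈ OE T E ∧ (∀ u ∈ corners x, u ∈ FB T E z (s + 1)) ∧
        1 / 16 ≤ U₀ x ∧ 1 / 16 ≤ U₁ x := by
    intro g g' dg dg' hgg hgg' hug hug' hfr h1 h2
    have h2' := not_le.1 h2
    by_cases hg : g ∈ OE T E
    · refine ⟨g, dg, hg, cls g dg hg hug, by linarith, ?_⟩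
      have h3 := harnack hU₁ n1 (hring g dg hg (cls g dg hg hug)) hgg
      by_cases hg' : g' ∈ OE T E
      · have := hsum g' dg' hg' (cls g' dg' hg' hug')
        linarith
      · have e0 := old0 g' hg'
        have e1 := old1 g' hg'
        by_cases h4 : π g' = 0
        · rw [if_pos h4] at e0
          linarith
        · rw [if_pos (z2_ne_zero _ h4)] at e1
          linarith
    · have hg' : g' ∈ OE T E := hfr.resolve_left hg
      have e0 := old0 g hg
      have h4 : π g = 0 := by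
        by_contra h4
        rw [if_neg h4] at e0
        linarith
      rw [if_pos h4] at e0
      have h3 := harnack hU₀ n0 (hring g' dg' hg' (cls g' dg' hg' hug')) hgg'
      linarith
  rw [hm] at hne
  simp only at hne
  by_cases h1 : 1 / 4 ≤ U₀ f
  · by_cases h2 : 1 / 4 ≤ U₀ f'
    · rw [if_pos h1, if_pos h2] at hne
      exact absurd rfl hne
    · exact main f f' df df' hff hff' hu hu' hfree h1 h2
  · by_cases h2 : 1 / 4 ≤ U₀ f'
    · exact main f' f df' df hff' hff hu' hu hfree.symm h2 h1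
    · rw [if_neg h1, if_neg h2] at hne
      exact absurd rfl hne

end Vale.Agent.P155.NT862
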