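import Vale.Agent.P155.NT814.US.Strand
import Vale.Agent.P155.NT862.Bal2
import Vale.Agent.P155.NT733.Weights
import Vale.Agent.P155.S743.Eval

/-!
# P155, NT862: the data of the one-point estimate as functions of the explored part

`labOf`, `potOf` are choice functions, so everything built from `T, E, v₁, z` is measurable at the
beginning of the excursion as soon as `z` is.
-/

namespace Vale.Agent.P155.NT862

open Finset Relation Vale.Agent.P155 T802 T862 T905 J NT NT733 Function Skel NT802 NT276 NT814.US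

variable {T : Temp} {xS : ℤ} {ω : Conf} {q : Pt} {r k : ℕ}

/-! ### the wall and the new path of an excursion -/

theorem hconnN (hω : ω ∈ DD T.V) : ∀ u ∈ SS T (EN T xS ω q r k), ∀ w ∈ SS T (EN T xS ω q r k),
    LR T (EN T xS ω q r k) u w := fun _ hu _ hw => connR' hω hu hw

/-- the explored set grows -/
theorem EN_sub {n : ℕ} (hn : eN T xS ω q r k ≤ n) : EN T xS ω q r k ⊆ Tm.En T.V xS ω n :=
  Tm.En_mono (V := T.V) (xS := xS) (ω := ω) hn

/-- the tip at the beginning of the excursion is on the wall -/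
theorem tip_SS : gN T xS ω (eN T xS ω q r k) ∈ SS T (EN T xS ω q r k) :=
  Or.inl (Tm.p_mem_En (V := T.V) (xS := xS) (ω := ω) le_rfl)

/-- **the new path, continued in the free ball around `z`** -/
theorem vis_linked (hω : ω ∈ DD T.V) (hr : 1 ≤ r) (hx : (16 * r : ℤ) ≤ |q.1 - xS|) {n D : ℕ}
    {z : Pt} (hen : eN T xS ω q r k < n) (hnx : n < xN T xS ω q r k)
    (hv : gN T xS ω n ∈ FB T (EN T xS ω q r k) z D) :
    Linked (Nw T (EN T xS ω q r k) (Tm.En T.V xS ω n) z D) (v1N T xS q r k ω) z := by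
  have h := linked_path (T := T) (E := EN T xS ω q r k) (E' := Tm.En T.V xS ω n) (z := z) (D := D)
    (M := n - (eN T xS ω q r k + 1)) (v := fun j => gN T xS ω (eN T xS ω q r k + 1 + j))
    (fun i hi => adj (k := k) hω hr hx (n := eN T xS ω q r k + 1 + i) (by omega) (by omega))
    (fun i hi => free (k := k) hω hr hx (by omega) (by omega))
    (fun i hi => Tm.p_mem_En (V := T.V) (xS := xS) (ω := ω) (by omega))
    (by
      rw [show eN T xS ω q r k + 1 + (n - (eN T xS ω q r k + 1)) = n by omega]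
      exact hv)
  simp only [add_zero] at h
  rw [v1N_eq hω hr hx (by omega)] at h
  exact h

/-- free connection -/
theorem linked_of_conn {E : Set Pt} {u v : Pt} (h : Conn {x | x ∉ SS T E} u v) :
    Linked (Fr T E) u v := by
  obtain ⟨h0, h⟩ := h
  have key : u ∉ SS T E ∧ Linked (Fr T E) u v ∧ v ∉ SS T E := by
    induction h with
    | refl => exact ⟨h0, Linked.refl _ _, h0⟩
    | tail _ h ih =>
      obtain ⟨h1, h2, h3⟩ := ih
      exact ⟨h1, h2.trans (Linked.edge h.1 ⟨h3, h.2⟩ ⟨h.2, h3⟩), h.2⟩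
  exact key.2.1

/-- **the labels exist** -/
theorem lab_ex (hω : ω ∈ DD T.V) (hr : 1 ≤ r) (hx : (16 * r : ℤ) ≤ |q.1 - xS|) {D : ℕ} {z : Pt}
    (h1 : eN T xS ω q r k + 1 < xN T xS ω q r k)
    (hw : ∃ w ∈ SS T (EN T xS ω q r k), dn z w ≤ D)
    (hc : Conn {x | x ∉ SS T (EN T xS ω q r k)} (v1N T xS q r k ω) z) :
    ∃ π, Lab T (EN T xS ω q r k) (v1N T xS q r k ω) z D π := by
  obtain ⟨w, hw1, hw2⟩ := hw
  have ha := adj hω hr hx (n := eN T xS ω q r k) le_rfl h1
  rw [v1N_eq hω hr hx h1] at ha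
  exact exists_lab (linked_of_conn hc) (linked_wall (hconnN hω) hw1 hw2 tip_SS ha)

/-! ### choice functions -/

open Classical in
/-- the label function, chosen from `(T, E, v₁, z, D)` -/
noncomputable def labOf (T : Temp) (E : Set Pt) (v₁ z : Pt) (D : ℕ) : Pt → ZMod 2 :=
  if h : ∃ π, Lab T E v₁ z D π then h.choose else fun _ => 0

theorem labOf_spec {E : Set Pt} {v₁ z : Pt} {D : ℕ} (h : ∃ π, Lab T E v₁ z D π) :
    Lab T E v₁ z D (labOf T E v₁ z D) := by
  unfold labOf
  rw [dif_pos h]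
  exact h.choose_spec

open Classical in
/-- the potential with given boundary values -/
noncomputable def potOf (A : Set Pt) (g : Pt → ℝ) : Pt → ℝ :=
  if h : ∃ U, IsPot A g U then h.choose else fun _ => 0

theorem potOf_spec {A : Set Pt} (hA : A.Finite) (g : Pt → ℝ) : IsPot A g (potOf A g) := by
  unfold potOf
  rw [dif_pos (exists_pot hA g)]
  exact (exists_pot hA g).choose_spec

/-- the free faces at distance in `(D + 1, N]` of `z` -/
def OD (T : Temp) (E : Set Pt) (z : Pt) (D N : ℕ) : Set Pt :=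
  {f | f ∈ OE T E ∧ D + 1 < dn z f ∧ dn z f ≤ N}

theorem OD_finite (T : Temp) (E : Set Pt) (z : Pt) (D N : ℕ) : (OD T E z D N).Finite :=
  (S743.oe_finite T E).subset fun _ h => h.1

/-- harmonic measure of the old faces with label `c` in the annulus around `z` -/
noncomputable def UL (T : Temp) (E : Set Pt) (v₁ z : Pt) (D N : ℕ) (c : ZMod 2) : Pt → ℝ :=
  potOf (OD T E z D N) (bdl T E (labOf T E v₁ z D) c)

theorem UL_spec (T : Temp) (E : Set Pt) (v₁ z : Pt) (D N : ℕ) (c : ZMod 2) :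
    IsPot (OD T E z D N) (bdl T E (labOf T E v₁ z D) c) (UL T E v₁ z D N c) :=
  potOf_spec (OD_finite T E z D N) _

/-- `y` is a balanced face at distance in `(s, 2 s]` of `z`, at distance `≥ m` of the old faces -/
def BalF (T : Temp) (E : Set Pt) (v₁ z : Pt) (D N s m : ℕ) (y : Pt) : Prop :=
  s < dn z y ∧ dn z y ≤ 2 * s ∧ y ∈ OD T E z D N ∧ 1 / 16 ≤ UL T E v₁ z D N 0 y ∧
    1 / 16 ≤ UL T E v₁ z D N 1 y ∧ m ≤ dF (OE T E) y

/-- the chosen balanced face -/
noncomputable def xB (T : Temp) (xS : ℤ) (q : Pt) (r k : ℕ) (z : Conf → Pt) (D N s m : ℕ)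
    (ω : Conf) : Pt :=
  pick (BalF T (EN T xS ω q r k) (v1N T xS q r k ω) (z ω) D N s m)

theorem xB_spec {z : Conf → Pt} {D N s m : ℕ}
    (h : ∃ y, BalF T (EN T xS ω q r k) (v1N T xS q r k ω) (z ω) D N s m y) :
    BalF T (EN T xS ω q r k) (v1N T xS q r k ω) (z ω) D N s m (xB T xS q r k z D N s m ω) :=
  pick_spec h

theorem at_xB {z : Conf → Pt} (hz : NT905.At (NT905.tE T.V xS q r k) z) (D N s m : ℕ) :
    NT905.At (NT905.tE T.V xS q r k) (xB T xS q r k z D N s m) := by
  have h := (at_EN (T := T) (xS := xS) (q := q) (r := r) (k := k)).comp₂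
    (fun E p => pick (BalF T E p.1 p.2 D N s m)) (at_v1.comp₂ (fun a b => (a, b)) hz)
  exact h

/-- `MeasS` and `At` are the same thing -/
theorem measS_of_at {α : Type*} {τ : Tm.GTime T.V xS} {f : Conf → α} (h : NT905.At τ f) :
    MeasS τ.toStop f where
  onE := fun ω hω ω' hω' hE => h.det ω hω ω' hω' hE
  uns := h.uns

theorem at_of_measS {α : Type*} {τ : Tm.GTime T.V xS} {f : Conf → α} (h : MeasS τ.toStop f) :
    NT905.At τ f where
  det := fun ω hω ω' hω' hE => h.onE ω hω ω' hω' hE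
  uns := h.uns

end Vale.Agent.P155.NT862
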