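import Vale.Agent.P155.NT426.Flux
import Vale.Agent.P155.G1.Decay

/-!
# P155, NT862: `H` is small near the side where it vanishes

In a SEP zone every face which is joined near `x0` to `x0` sees only the side `P` up to the
distance `L`, so `H ≤ 2 ((2 n + 2) / (L + 1)) ^ β` there.
-/

namespace Vale.Agent.P155.NT862

open Finset Vale.Agent.P155 G45 G S743 NT802 NT276 NT426 J T802 H12

theorem side_small {β : ℝ} (hβ : 0 < β) (hSD : SupDecay 2 β) {O : Set Pt} (hCP : CPr O) {P : Pt → Prop}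
    {q x0 : Pt} {r1 d a n L : ℕ} {H : Pt → ℝ} (hsep : SepA O P q r1 d)
    (hH : ∀ x ∈ O, lap H x = 0) (hH0 : ∀ x, 0 ≤ H x) (hH1 : ∀ x, H x ≤ 1)
    (hHb : ∀ b, b ∉ O → P b → dn q b ≤ a → H b = 0) (hx0 : x0 ∈ O)
    (hseen : Seen O P q r1 n x0) (hnL : 2 * n + 1 ≤ L) (hLd : L + n + 1 ≤ d)
    (hLr : dn q x0 + n + 1 + L ≤ r1) (hLa : dn q x0 + n + 2 + L ≤ a) {y : Pt}
    (hy : Conn {x | x ∈ O ∧ x ∈ box x0 n} x0 y) :
    H y ≤ 2 * ((2 * (n : ℝ) + 2) / ((L : ℝ) + 1)) ^ β := by
  classical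
  obtain ⟨f', p, cf, hfp, hpO, hPp⟩ := hseen
  have hfx : dn x0 f' ≤ n := by
    have h := Conn.right cf
    exact G45.mem_box.1 h.2.2
  have hxp : dn x0 p ≤ n + 1 := by
    have := dn_of_adj hfp
    have := dn_tri x0 f' p
    omega
  have hpx : dn p x0 ≤ n + 1 := by rw [dn_comm]; exact hxp
  set B : Set Pt := {y | y ∈ O ∧ y ∈ box p L} with hB
  have hx0B : x0 ∈ B := ⟨hx0, G45.mem_box.2 (by omega)⟩
  set O' : Set Pt := {y | Conn B x0 y} with hO'
  have hO'B : ∀ y ∈ O', y ∈ B := fun y hy => Conn.right hy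
  set u : Pt → ℝ := fun y => if y ∈ O' then H y else 0 with hu
  have hBd : B ⊆ {x | x ∈ O ∧ x ∈ box q r1 ∧ x ∈ box x0 d} := by
    rintro y ⟨hyO, hy⟩
    have h1 := G45.mem_box.1 hy
    have h2 := dn_tri x0 p y
    have h4 := dn_tri q x0 y
    exact ⟨hyO, G45.mem_box.2 (by omega), G45.mem_box.2 (by omega)⟩
  have cf' : Conn {x | x ∈ O ∧ x ∈ box q r1 ∧ x ∈ box x0 d} x0 f' := by
    refine Conn.mono ?_ cf
    rintro z ⟨z1, z2, z3⟩
    exact ⟨z1, z2, box_mono (by omega) z3⟩
  have hval : ∀ y ∈ O', dn p y < L → ∀ z, Adj y z → u z = H z := by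
    intro y hy hyL z hyz
    have hyB := hO'B y hy
    have hyz1 := dn_of_adj hyz
    by_cases hzO : z ∈ O
    · have hzB : z ∈ B := ⟨hzO, G45.mem_box.2 (by have := dn_tri p y z; omega)⟩
      have hz' : z ∈ O' := Conn.trans hy (Conn.step hyB hzB hyz)
      simp only [hu]
      rw [if_pos hz']
    · have hz' : z ∉ O' := fun h' => hzO (hO'B z h').1
      simp only [hu]
      rw [if_neg hz']
      have hPz : P z := by
        refine (hsep x0 f' y ?_ p z hpO hzO hfp hyz).1 hPp
        exact cf'.symm.trans (Conn.mono hBd hy)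
      have hqz : dn q z ≤ a := by
        have h1 := dn_tri p y z
        have h2 := dn_tri x0 p z
        have h4 := dn_tri q x0 z
        omega
      exact (hHb z hzO hPz hqz).symm
  have hyO' : y ∈ O' := by
    refine Conn.mono ?_ hy
    rintro z ⟨z1, z2⟩
    have h1 := G45.mem_box.1 z2
    have h2 := dn_tri p x0 z
    exact ⟨z1, G45.mem_box.2 (by omega)⟩
  have hyp : dn p y ≤ 2 * n + 1 := by
    have h := (Conn.right hy).2
    have h1 := G45.mem_box.1 h
    have h2 := dn_tri p x0 y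
    omega
  have h1 := hSD O' p L 1 u
    (fun r _ => by
      obtain ⟨y, hy, hy'⟩ := hCP p hpO r
      exact ⟨y, fun h' => hy (hO'B y h').1, hy'⟩)
    (fun x hx => by simp only [hu]; rw [if_neg hx])
    (fun y hy hyL => by
      rw [NT426.lap_congr_adj (g := H) (fun z hz => hval y hy hyL z hz)
        (by simp only [hu]; rw [if_pos hy]), hH y (hO'B y hy).1])
    (fun y _ => by
      simp only [hu]
      split_ifs
      · rw [abs_of_nonneg (hH0 y)]
        exact hH1 y
      · rw [abs_zero]; exact zero_le_one)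
    y (by omega)
  have huy : u y = H y := by
    simp only [hu]
    rw [if_pos hyO']
  rw [huy, mul_one] at h1
  refine (le_abs_self _).trans (h1.trans ?_)
  refine mul_le_mul_of_nonneg_left ?_ (by norm_num)
  refine Real.rpow_le_rpow (by positivity) ?_ hβ.le
  refine div_le_div_of_nonneg_right ?_ (by positivity)
  have : (dn p y : ℝ) ≤ 2 * n + 1 := by exact_mod_cast hyp
  linarith

end Vale.Agent.P155.NT862
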