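import Vale.Agent.P155.NT862.Ray

/-!
# P155, NT862: the balanced face on a ring
-/

namespace Vale.Agent.P155.NT862

open Vale.Agent.P155 T802 Finset NT Relation NT733

variable {T : Temp} {E : Set Pt} {z v₁ : Pt} {D s : ℕ}

/-- a harmonic function is at least a quarter of the value at a neighbour -/
theorem harnack {A : Set Pt} {g U : Pt → ℝ} (h : IsPot A g U) (h0 : ∀ f, 0 ≤ U f) {x y : Pt}
    (hx : x ∈ A) (hy : y ∈ nbrs x) : U y ≤ 4 * U x := by
  have h1 := h.1 x hx
  have n1 := h0 (x.1 + 1, x.2)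
  have n2 := h0 (x.1 - 1, x.2)
  have n3 := h0 (x.1, x.2 + 1)
  have n4 := h0 (x.1, x.2 - 1)
  unfold lap at h1
  simp only [nbrs, mem_insert, mem_singleton] at hy
  rcases hy with rfl | rfl | rfl | rfl <;> linarith

theorem z2_two : ∀ p q : ZMod 2, p ≠ q → q = p + 1 := by decide

theorem z2_ne_zero : ∀ p : ZMod 2, p ≠ 0 → p = 1 := by decide

/-- the vertices of a ring are close to the ring -/
theorem ring_vert {t : ℤ} (h0 : 0 ≤ t) (h1 : t < 8 * s) :
    (wi z s t ∈ corners (rp z s t) ∧ wi z s t ∈ corners (rp z s (t + 1))) ∧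
      (wo z s t ∈ corners (rp z s t) ∧ wo z s t ∈ corners (rp z s (t + 1))) :=
  ⟨(ring_corner h0 h1).2 (Or.inl rfl), (ring_corner h0 h1).2 (Or.inr rfl)⟩

theorem corner_near {f u : Pt} (hu : u ∈ corners f) : dn z u ≤ dn z f + 1 := by
  have h1 : dn f u ≤ 1 := by
    rw [mem_corners] at hu
    rw [H924.dn_le_iff]
    push_cast
    constructor <;> rw [abs_le] <;> omega
  have := H924.dn_triangle z f u
  omega

/-- **the labels change along the ring**: with `m t` any function which is the label on the old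
faces, `m` must jump at a step which does not cross the wall chain. -/
theorem ring_jump {π : Pt → ZMod 2} (hπ : Lab T E v₁ z D π) (hs : D + 1 < s)
    (hv : s + 1 < dn z v₁) {m : Pt → ZMod 2} (hm : ∀ f, dn z f = s → f ∉ OE T E → m f = π f) :
    ∃ f f', dn z f = s ∧ dn z f' = s ∧ f' ∈ nbrs f ∧ f ∈ nbrs f' ∧
      (((f ∈ OE T E ∨ f' ∈ OE T E) ∧ m f ≠ m f') ∨
        (f ∉ OE T E ∧ f' ∉ OE T E ∧ π f ≠ π f' ∧
          ∀ u ∈ corners f, u ∈ corners f' → u ∉ SS T E)) := by
  obtain ⟨a₀, b₀, ka, kb, h₀, hk, rfl⟩ := hπ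
  by_contra hcon
  push Not at hcon
  obtain ⟨π, hπ⟩ : ∃ π : Pt → ZMod 2, π = par (fun u => a₀ u + ka u) := ⟨_, rfl⟩
  rw [← hπ] at hm hcon
  have hs1 : 1 ≤ s := by omega
  -- the rays
  obtain ⟨ra, rb, hr⟩ := exists_ray hv
  have hr' := (hr.mono (Q := fun _ _ => True) fun _ _ _ => trivial).chain
    (hk.mono (Q := fun _ _ => True) fun _ _ _ => trivial)
  have hz := rr_half z
  have hEv := hr'.even hz
  have hEv0 : EvenSet (fun u => a₀ u + ka u) (fun u => b₀ u + kb u) :=
    ((h₀.mono (Q := fun _ _ => True) fun _ _ _ => trivial).add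
      (hk.mono fun _ _ _ => trivial)).even
  obtain ⟨H, hH⟩ : ∃ H : Pt → ZMod 2, H = par (fun v => ka v + ra v + (fun _ => (0 : ZMod 2)) v) :=
    ⟨_, rfl⟩
  -- one step
  have step : ∀ t : ℤ, 0 ≤ t → t < 8 * s →
      m (rp z s (t + 1)) + H (rp z s (t + 1)) =
        m (rp z s t) + H (rp z s t) + ind (t = s - 1) := by
    intro t h0 h1
    have hH1 : H (rp z s (t + 1)) = H (rp z s t) +
        (co ka kb z s t + co ra rb z s t + co (fun _ => 0) (rr z) z s t) := by
      rw [hH, co_spec hEv z h0 h1]
      congr 1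
      rw [← co_add, ← co_add]
    have hray : co ra rb z s t = 0 := by
      by_contra hne
      have hd1 : dn z (wi z s t) ≤ s + 1 := by
        have := corner_near (z := z) (ring_vert (z := z) h0 h1).1.1
        rwa [rp_dn h0 h1.le] at this
      rcases co_ne (P := fun u w => s + 1 < dn z u ∧ s + 1 < dn z w) hr.av hr.bv z h0 h1 hne with h | h
      · exact absurd h.1 (not_lt.2 hd1)
      · exact absurd h.2 (not_lt.2 hd1)
    rw [co_rr z hs1 h0 h1, hray, add_zero] at hH1
    have d0 : dn z (rp z s t) = s := rp_dn h0 h1.le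
    have d1 : dn z (rp z s (t + 1)) = s := rp_dn (by omega) (by omega)
    have hn : rp z s (t + 1) ∈ nbrs (rp z s t) := rp_step h0 h1
    have hn' : rp z s t ∈ nbrs (rp z s (t + 1)) := nbrs_comm.1 hn
    obtain ⟨⟨c1, c2⟩, ⟨c3, c4⟩⟩ := ring_vert (z := z) h0 h1
    -- the wall chain
    have hkw : co ka kb z s t ≠ 0 → wi z s t ∈ SS T E ∨ wo z s t ∈ SS T E := by
      intro hne
      have f1 : D < dn z (wi z s t) := corner_far (by rw [d0]; exact hs) c1
      rcases co_ne (P := Kw T E z D) hk.av hk.bv z h0 h1 hne with h | h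
      · rcases h with h | h | h
        · exact Or.inl h
        · exact Or.inr h
        · omega
      · rcases h with h | h | h
        · exact Or.inr h
        · exact Or.inl h
        · omega
    have hkey : m (rp z s (t + 1)) = m (rp z s t) + co ka kb z s t := by
      by_cases hfree : rp z s t ∈ OE T E ∨ rp z s (t + 1) ∈ OE T E
      · have e1 : co ka kb z s t = 0 := by
          by_contra hne
          rcases hkw hne with h | h
          · rcases hfree with h' | h'
            · exact notMem_OE_of c1 h h'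
            · exact notMem_OE_of c2 h h'
          · rcases hfree with h' | h'
            · exact notMem_OE_of c3 h h'
            · exact notMem_OE_of c4 h h'
        rw [e1, add_zero]
        exact ((hcon _ _ d0 d1 hn hn').1 hfree).symm
      · push Not at hfree
        obtain ⟨hf0, hf1⟩ := hfree
        rw [hm _ d0 hf0, hm _ d1 hf1]
        have e2 : π (rp z s (t + 1)) = π (rp z s t) + (co a₀ b₀ z s t + co ka kb z s t) := by
          rw [hπ, co_spec hEv0 z h0 h1, ← co_add]
        by_cases h3 : co a₀ b₀ z s t = 0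
        · rw [e2, h3, zero_add]
        · exfalso
          have hfr : wi z s t ∉ SS T E ∧ wo z s t ∉ SS T E := by
            rcases co_ne (P := Fr T E) h₀.av h₀.bv z h0 h1 h3 with h | h
            · exact h
            · exact ⟨h.2, h.1⟩
          have e3 : co ka kb z s t = 0 := by
            by_contra hne
            exact (hkw hne).elim hfr.1 hfr.2
          have e4 : π (rp z s t) ≠ π (rp z s (t + 1)) := by
            rw [e2, e3, add_zero, z2_ne_zero _ h3]
            intro h
            have : ∀ p : ZMod 2, p ≠ p + 1 := by decide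
            exact this _ h
          obtain ⟨u, hu1, hu2, hu3⟩ := (hcon _ _ d0 d1 hn hn').2 hf0 hf1 e4
          rcases (ring_corner h0 h1).1 ⟨hu1, hu2⟩ with rfl | rfl
          · exact hfr.1 hu3
          · exact hfr.2 hu3
    rw [hkey, hH1]
    have : ∀ p q r w : ZMod 2, p + q + (r + (q + w)) = p + r + w := by decide
    exact this _ _ _ _
  -- around the ring
  have key : ∀ n : ℕ, n ≤ 8 * s → m (rp z s n) + H (rp z s n) =
      m (rp z s 0) + H (rp z s 0) + ind (s ≤ n) := by
    intro n
    induction n with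
    | zero =>
      intro _
      rw [ind_false (by omega), add_zero]
      rfl
    | succ n ih =>
      intro hn
      have h1 := step n (by positivity) (by omega)
      rw [show ((n + 1 : ℕ) : ℤ) = (n : ℤ) + 1 by push_cast; rfl, h1, ih (by omega), add_assoc]
      congr 1
      by_cases h2 : n + 1 = s
      · rw [ind_false (by omega), ind_true (by omega), ind_true (by omega), zero_add]
      · by_cases h3 : s ≤ n
        · rw [ind_true h3, ind_false (by omega), ind_true (by omega), add_zero]
        · rw [ind_false h3, ind_false (by omega), ind_false (by omega), add_zero]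
  have h8 := key (8 * s) le_rfl
  rw [show ((8 * s : ℕ) : ℤ) = 8 * (s : ℤ) by push_cast; rfl, rp_end, ind_true (by omega)] at h8
  have : ∀ p q : ZMod 2, ¬ (p + q = p + q + 1) := by decide
  exact this _ _ h8

open Classical in
/-- **the balanced face**: on a ring around `z` (with the tip outside) where the walk leaves `O'`
through the wall with probability at least `1/2`, there is a free face from which both labels
are reached with probability at least `1/16`, or there are two adjacent old faces with different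
labels on the two sides of a channel of width one. -/
theorem bal {π : Pt → ZMod 2} (hπ : Lab T E v₁ z D π) (hs : D + 1 < s) (hv : s + 1 < dn z v₁)
    {O' : Set Pt} (hO' : O' ⊆ OE T E) (hfin : O'.Finite)
    (hring : ∀ f, dn z f = s → f ∈ OE T E → f ∈ O') {U₀ U₁ : Pt → ℝ}
    (hU₀ : IsPot O' (bdl T E π 0) U₀) (hU₁ : IsPot O' (bdl T E π 1) U₁)
    (hsum : ∀ f, dn z f = s → f ∈ OE T E → 1 / 2 ≤ U₀ f + U₁ f) :
    (∃ x, dn z x = s ∧ x ∈ OE T E ∧ 1 / 16 ≤ U₀ x ∧ 1 / 16 ≤ U₁ x) ∨
      ∃ x x', dn z x = s ∧ dn z x' = s ∧ x' ∈ nbrs x ∧ x ∉ OE T E ∧ x' ∉ OE T E ∧ π x ≠ π x' ∧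
        ∀ u ∈ corners x, u ∈ corners x' → u ∉ SS T E := by
  have n0 := hU₀.nonneg hfin (bdl_nonneg π 0)
  have n1 := hU₁.nonneg hfin (bdl_nonneg π 1)
  have old0 : ∀ f, f ∉ OE T E → U₀ f = if π f = 0 then 1 else 0 := by
    intro f hf
    rw [hU₀.2 f (fun h => hf (hO' h))]
    unfold bdl
    exact if_congr (by simp [hf]) rfl rfl
  have old1 : ∀ f, f ∉ OE T E → U₁ f = if π f = 1 then 1 else 0 := by
    intro f hf
    rw [hU₁.2 f (fun h => hf (hO' h))]
    unfold bdl
    exact if_congr (by simp [hf]) rfl rfl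
  obtain ⟨m, hm⟩ : ∃ m : Pt → ZMod 2, m = fun f => if 1 / 4 ≤ U₀ f then 0 else 1 := ⟨_, rfl⟩
  have hmo : ∀ f, dn z f = s → f ∉ OE T E → m f = π f := by
    intro f _ hf
    rw [hm]
    simp only
    rw [old0 f hf]
    by_cases h : π f = 0
    · rw [if_pos h, if_pos (by norm_num), h]
    · rw [if_neg h, if_neg (by norm_num), z2_ne_zero _ h]
  obtain ⟨f, f', df, df', hff, hff', h⟩ := ring_jump hπ hs hv hmo
  rcases h with ⟨hfree, hne⟩ | ⟨h1, h2, h3, h4⟩
  swap
  · exact Or.inr ⟨f, f', df, df', hff, h1, h2, h3, h4⟩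
  left
  -- a symmetric statement
  have main : ∀ g g', dn z g = s → dn z g' = s → g' ∈ nbrs g → g ∈ nbrs g' →
      (g ∈ OE T E ∨ g' ∈ OE T E) → 1 / 4 ≤ U₀ g → ¬ (1 / 4 ≤ U₀ g') →
      ∃ x, dn z x = s ∧ x ∈ OE T E ∧ 1 / 16 ≤ U₀ x ∧ 1 / 16 ≤ U₁ x := by
    intro g g' dg dg' hgg hgg' hfr h1 h2
    have h2' := not_le.1 h2
    by_cases hg : g ∈ OE T E
    · refine ⟨g, dg, hg, by linarith, ?_⟩
      have h3 := harnack hU₁ n1 (hring g dg hg) hgg
      by_cases hg' : g' ∈ OE T E
      · have := hsum g' dg' hg'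
        linarith
      · have e0 := old0 g' hg'
        have e1 := old1 g' hg'
        by_cases h4 : π g' = 0
        · rw [if_pos h4] at e0
          linarith
        · rw [if_pos (z2_ne_zero _ h4)] at e1
          linarith
    · have hg' : g' ∈ OE T E := hfr.resolve_left hg
      have e0 := old0 g hg
      have h4 : π g = 0 := by
        by_contra h4
        rw [if_neg h4] at e0
        linarith
      rw [if_pos h4] at e0
      have h3 := harnack hU₀ n0 (hring g' dg' hg') hgg'
      linarith
  rw [hm] at hne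
  simp only at hne
  by_cases h1 : 1 / 4 ≤ U₀ f
  · by_cases h2 : 1 / 4 ≤ U₀ f'
    · rw [if_pos h1, if_pos h2] at hne
      exact absurd rfl hne
    · exact main f f' df df' hff hff' hfree h1 h2
  · by_cases h2 : 1 / 4 ≤ U₀ f'
    · exact main f' f df' df hff' hff hfree.symm h2 h1
    · rw [if_neg h1, if_neg h2] at hne
      exact absurd rfl hne

end Vale.Agent.P155.NT862
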