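import Vale.Agent.P155.NT733.Conn

/-!
# P155, NT862: the explored set together with the outside is connected (paths instead of chains)
-/

namespace Vale.Agent.P155.NT862

open Vale.Agent.P155 T802 Finset NT Relation LatCycle NT733

/-- one step between vertices of `SS` -/
def PR (T : Temp) (E : Set Pt) (u w : Pt) : Prop := Adj u w ∧ u ∈ SS T E ∧ w ∈ SS T E

/-- path connected inside `SS` -/
def LR (T : Temp) (E : Set Pt) (u w : Pt) : Prop := ReflTransGen (PR T E) u w

variable {T : Temp} {E : Set Pt}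

theorem PR.symm {u w : Pt} (h : PR T E u w) : PR T E w u :=
  ⟨L.adj_symm h.1, h.2.2, h.2.1⟩

theorem LR.refl (u : Pt) : LR T E u u := ReflTransGen.refl

theorem LR.trans {u v w : Pt} (h : LR T E u v) (h' : LR T E v w) : LR T E u w :=
  ReflTransGen.trans h h'

theorem LR.symm {u w : Pt} (h : LR T E u w) : LR T E w u := by
  unfold LR at h
  induction h with
  | refl => exact LR.refl _
  | tail _ h ih => exact ReflTransGen.head h.symm ih

theorem LR.edge {u w : Pt} (h : Adj u w) (hu : u ∈ SS T E) (hw : w ∈ SS T E) : LR T E u w :=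
  ReflTransGen.single ⟨h, hu, hw⟩

theorem LR.edge' {u w : Pt} (h : u = w ∨ Adj u w) (hu : u ∈ SS T E) (hw : w ∈ SS T E) :
    LR T E u w := by
  rcases h with rfl | h
  · exact LR.refl _
  · exact LR.edge h hu hw

theorem SS_mono {E E' : Set Pt} (h : E ⊆ E') : SS T E ⊆ SS T E' := fun _ hv =>
  hv.elim (fun h' => Or.inl (h h')) Or.inr

/-- a chain from a path -/
theorem LR.linked {P : Pt → Pt → Prop} (hP : ∀ u w, u ∈ SS T E → w ∈ SS T E → P u w) {u w : Pt}
    (h : LR T E u w) : Linked P u w := by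
  unfold LR at h
  induction h with
  | refl => exact Linked.refl _ _
  | tail _ h ih => exact ih.trans (Linked.edge h.1 (hP _ _ h.2.1 h.2.2) (hP _ _ h.2.2 h.2.1))

/-! ### the outside -/

theorem cell_stepR {F G : Pt} (h : Adj F G) (hF : ¬ T.γ.inside F) (hG : ¬ T.γ.inside G) :
    LR T E (ctr F) (ctr G) := by
  have hm : (F.1 + G.1 + 1, F.2 + G.2 + 1) ∉ T.closedVerts := by
    rintro ⟨H, hH, a1, a2, a3, a4⟩
    simp only at a1 a2 a3 a4
    have := mem_nbrs.2 h
    simp only [nbrs, mem_insert, mem_singleton] at this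
    have e : H = F ∨ H = G := by
      obtain ⟨x, y⟩ := F
      obtain ⟨p, q⟩ := H
      rcases this with rfl | rfl | rfl | rfl <;> simp only at a1 a2 a3 a4 <;>
        simp only [Prod.mk.injEq] <;> omega
    rcases e with rfl | rfl
    · exact hF hH
    · exact hG hH
  have h' := h
  unfold Adj at h'
  have e1 : Adj (ctr F) (F.1 + G.1 + 1, F.2 + G.2 + 1) := by
    unfold Adj ctr
    simp only
    rw [← h']
    congr 2 <;> ring
  have e2 : Adj (F.1 + G.1 + 1, F.2 + G.2 + 1) (ctr G) := by
    unfold Adj ctr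
    simp only
    rw [← h']
    congr 2 <;> ring
  exact (LR.edge e1 (Or.inr (ctr_notMem hF)) (Or.inr hm)).trans
    (LR.edge e2 (Or.inr hm) (Or.inr (ctr_notMem hG)))

theorem cell_connR {F G : Pt} (hF : ¬ T.γ.inside F) (hG : ¬ T.γ.inside G) :
    LR T E (ctr F) (ctr G) := by
  have hr : T.γ.Reach F G := reach_of_inside_iff (by tauto)
  have key : ∀ H, T.γ.Reach F H → LR T E (ctr F) (ctr H) := by
    intro H hH
    unfold Reach at hH
    induction hH with
    | refl => exact LR.refl _
    | @tail b c hb hs ih =>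
      have hb1 : ¬ T.γ.inside b := fun h => hF ((Reach.inside_iff hb).2 h)
      have hc1 : ¬ T.γ.inside c := fun h => hb1 (hs.inside_iff.2 h)
      exact ih.trans (cell_stepR hs.adj hb1 hc1)
  exact key G hr

theorem ext_ctrR {v : Pt} (hv : v ∉ T.closedVerts) :
    ¬ T.γ.inside (v.1 / 2, v.2 / 2) ∧ LR T E v (ctr (v.1 / 2, v.2 / 2)) := by
  have hF : ¬ T.γ.inside (v.1 / 2, v.2 / 2) := by
    intro h
    exact hv ⟨_, h, by simp only; omega, by simp only; omega, by simp only; omega,
      by simp only; omega⟩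
  refine ⟨hF, ?_⟩
  have hm : (2 * (v.1 / 2) + 1, v.2) ∉ T.closedVerts := by
    rintro ⟨H, hH, a1, a2, a3, a4⟩
    simp only at a1 a2 a3 a4
    exact hv ⟨H, hH, by omega, by omega, by omega, by omega⟩
  have e1 : v = (2 * (v.1 / 2) + 1, v.2) ∨ Adj v (2 * (v.1 / 2) + 1, v.2) := by
    by_cases h : v.1 = 2 * (v.1 / 2) + 1
    · exact Or.inl (Prod.ext h rfl)
    · right
      unfold Adj
      simp only [sub_self, abs_zero, add_zero]
      rw [abs_of_nonpos (by omega)]
      omega
  have e2 : (2 * (v.1 / 2) + 1, v.2) = ctr (v.1 / 2, v.2 / 2) ∨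
      Adj (2 * (v.1 / 2) + 1, v.2) (ctr (v.1 / 2, v.2 / 2)) := by
    by_cases h : v.2 = 2 * (v.2 / 2) + 1
    · exact Or.inl (Prod.ext rfl h)
    · right
      unfold Adj ctr
      simp only [sub_self, abs_zero, zero_add]
      rw [abs_of_nonpos (by omega)]
      omega
  exact (LR.edge' e1 (Or.inr hv) (Or.inr hm)).trans
    (LR.edge' e2 (Or.inr hm) (Or.inr (ctr_notMem hF)))

/-- the outside of the closed polygon is connected -/
theorem ext_connR {u w : Pt} (hu : u ∉ T.closedVerts) (hw : w ∉ T.closedVerts) :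
    LR T E u w := by
  obtain ⟨h1, h2⟩ := ext_ctrR (T := T) (E := E) hu
  obtain ⟨h3, h4⟩ := ext_ctrR (T := T) (E := E) hw
  exact (h2.trans (cell_connR h1 h3)).trans h4.symm

/-! ### the explored part -/

variable {ω : Conf} {V : Finset Pt} {xS t : ℤ} {i : ℕ}

/-- the half line is connected -/
theorem line_connR {E : Set Pt} (hE : Et xS ω t ⊆ E) : ∀ (k : ℕ) (y : ℤ), y + k = t - 1 →
    LR T E (xS, y) (xS, t - 1) := by
  intro k
  induction k with
  | zero =>
    intro y hy
    have : y = t - 1 := by push_cast at hy; omega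
    rw [this]
    exact LR.refl _
  | succ k ih =>
    intro y hy
    have h1 : (xS, y) ∈ SS T E := Or.inl (hE (line_mem (by push_cast at hy; omega)))
    have h2 : (xS, y + 1) ∈ SS T E := Or.inl (hE (line_mem (by push_cast at hy; omega)))
    exact (LR.edge (by simp [Adj]) h1 h2).trans (ih (y + 1) (by push_cast at hy ⊢; omega))

theorem line_connR' {E : Set Pt} (hE : Et xS ω t ⊆ E) {y : ℤ} (hy : y < t) :
    LR T E (xS, y) (xS, t - 1) :=
  line_connR hE (t - 1 - y).toNat y (by rw [Int.toNat_of_nonneg (by omega)]; ring)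

/-- everything hit by the half line is connected -/
theorem Et_connR (hω : ω ∈ DD V) {E : Set Pt} (hE : Et xS ω t ⊆ E) {u : Pt}
    (hu : u ∈ Et xS ω t) : LR T E u (xS, t - 1) := by
  obtain ⟨y, hy, hu⟩ := hu
  refine LR.trans (LR.symm ?_) (line_connR' hE hy)
  have hu' : Same ω (xS, y) u := hu
  unfold Same at hu'
  clear hu
  have key : ∀ w, ReflTransGen (fun u v => v = ω.1 u ∨ v = ω.2 u) (xS, y) w →
      LR T E (xS, y) w := by
    intro w hw
    induction hw with
    | refl => exact LR.refl _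
    | @tail b c hb hs ih =>
      have h1 : b ∈ SS T E := Or.inl (hE ⟨y, hy, hb⟩)
      have h2 : c ∈ SS T E := Or.inl (hE ⟨y, hy, hb.tail hs⟩)
      exact ih.trans (LR.edge' (step_eq_or_adj hω hs) h1 h2)
  exact key u hu'

theorem go_connR (hω : ω ∈ DD V) {j : ℕ} (hj : j ≤ i) :
    LR T (Eti xS ω t i) (go ω (xS, t) j) (xS, t - 1) := by
  induction j with
  | zero =>
    rw [Go.go_zero]
    refine LR.edge (by simp [Adj]) (Or.inl (Or.inr ⟨0, hj, (Go.go_zero _ _).symm⟩))
      (Or.inl (Or.inl (line_mem (by omega))))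
  | succ j ih =>
    refine LR.trans (LR.symm ?_) (ih (by omega))
    have h1 : go ω (xS, t) j ∈ SS T (Eti xS ω t i) := Or.inl (Or.inr ⟨j, by omega, rfl⟩)
    have h2 : go ω (xS, t) (j + 1) ∈ SS T (Eti xS ω t i) := Or.inl (Or.inr ⟨j + 1, hj, rfl⟩)
    exact LR.edge' (step_eq_or_adj hω (Go.go_step ω (xS, t) j)) h1 h2

/-- **the explored set and the outside of the polygon together are path connected** -/
theorem connR (hω : ω ∈ DD V) {u : Pt} (hu : u ∈ SS T (Eti xS ω t i)) :
    LR T (Eti xS ω t i) u (xS, t - 1) := by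
  rcases hu with (hu | ⟨j, hj, rfl⟩) | hu
  · exact Et_connR hω (fun _ h => Or.inl h) hu
  · exact go_connR hω hj
  · obtain ⟨y, hy, h⟩ := exists_line_outside T xS t
    exact (ext_connR hu h).trans (line_connR' (fun _ h => Or.inl h) hy)

/-- any two points of the wall are connected -/
theorem connR' (hω : ω ∈ DD V) {u w : Pt} (hu : u ∈ SS T (Eti xS ω t i))
    (hw : w ∈ SS T (Eti xS ω t i)) : LR T (Eti xS ω t i) u w :=
  (connR hω hu).trans (connR hω hw).symm

end Vale.Agent.P155.NT862
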