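import Vale.Agent.P155.NT862.Bal

/-!
# P155, NT862: different labels close to each other come from different pieces of the wall
-/

namespace Vale.Agent.P155.NT862

open Vale.Agent.P155 T802 Finset NT Relation NT733

variable {T : Temp} {E : Set Pt} {z v₁ x : Pt} {D ρ : ℕ}

/-- a flip of the parity is the crossing of an edge (for edge sets with a relation) -/
theorem cross_edge' {P : Pt → Pt → Prop} {a b : Pt → ZMod 2} (hE : EvenSet a b)
    (ha : ∀ v : Pt, a v ≠ 0 → P v (v.1, v.2 + 1)) (hb : ∀ v : Pt, b v ≠ 0 → P v (v.1 + 1, v.2))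
    {f f' : Pt} (hff : f' ∈ nbrs f) (hne : par a f ≠ par a f') :
    ∃ u w, P u w ∧ u ∈ corners f ∧ w ∈ corners f ∧ u ∈ corners f' ∧ w ∈ corners f' := by
  obtain ⟨p, q⟩ := f
  simp only [nbrs, mem_insert, mem_singleton] at hff
  rcases hff with rfl | rfl | rfl | rfl
  · have h0 := par_vert hE (p + 1) q (by rw [add_sub_cancel_right]; exact hne.symm)
    exact ⟨_, _, ha _ h0, by simp [mem_corners], by simp [mem_corners], by simp [mem_corners],
      by simp [mem_corners]⟩
  · have h0 := par_vert hE p q hne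
    exact ⟨_, _, ha _ h0, by simp [mem_corners], by simp [mem_corners], by simp [mem_corners],
      by simp [mem_corners]⟩
  · have h0 := par_hor hE p (q + 1) (by rw [add_sub_cancel_right]; exact hne.symm)
    exact ⟨_, _, hb _ h0, by simp [mem_corners], by simp [mem_corners], by simp [mem_corners],
      by simp [mem_corners]⟩
  · have h0 := par_hor hE p q hne
    exact ⟨_, _, hb _ h0, by simp [mem_corners], by simp [mem_corners], by simp [mem_corners],
      by simp [mem_corners]⟩

/-- no edge at `q`: constant parity around `q` -/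
theorem around_of {P : Pt → Pt → Prop} {a b : Pt → ZMod 2} (hE : EvenSet a b)
    (ha : ∀ v : Pt, a v ≠ 0 → P v (v.1, v.2 + 1)) (hb : ∀ v : Pt, b v ≠ 0 → P v (v.1 + 1, v.2))
    {q : Pt} (hq : ∀ u, ¬ P q u ∧ ¬ P u q) {f f' : Pt} (hf : q ∈ corners f)
    (hf' : q ∈ corners f') : par a f = par a f' := by
  refine par_around hE (q := q) ?_ ?_ ?_ ?_ (mem_facesAt.2 hf) (mem_facesAt.2 hf')
  · by_contra h0
    exact (hq _).1 (ha _ h0)
  · by_contra h0
    have := ha _ h0
    simp only [sub_add_cancel] at this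
    exact (hq _).2 this
  · by_contra h0
    exact (hq _).1 (hb _ h0)
  · by_contra h0
    have := hb _ h0
    simp only [sub_add_cancel] at this
    exact (hq _).2 this

/-- face steps which do not cross edges at the wall -/
def FS (T : Temp) (E : Set Pt) (x : Pt) (ρ : ℕ) (g g' : Pt) : Prop :=
  g' ∈ nbrs g ∧ (∀ u ∈ corners g, u ∈ corners g' → u ∉ SS T E) ∧ dn x g ≤ ρ ∧ dn x g' ≤ ρ

/-- steps of the wall inside a box -/
def LS (T : Temp) (E : Set Pt) (x : Pt) (ρ : ℕ) (u u' : Pt) : Prop :=
  Adj u u' ∧ u ∈ SS T E ∧ u' ∈ SS T E ∧ dn x u ≤ ρ ∧ dn x u' ≤ ρ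

/-- **(MIC)** two old faces which are joined, inside a box, by a face walk which does not cross
edges at the wall, and whose corners are joined by the wall inside the same box, have the same
label (`z` and the tip are outside the box). -/
theorem mic {π : Pt → ZMod 2} (hπ : Lab T E v₁ z D π) (hz : ρ + 2 + D < dn x z)
    (hv : ρ + 1 < dn x v₁) {w w' q q' : Pt} (hwalk : ReflTransGen (FS T E x ρ) w w')
    (hq : q ∈ corners w) (hqS : q ∈ SS T E) (hqd : dn x q ≤ ρ) (hq' : q' ∈ corners w')
    (hloc : ReflTransGen (LS T E x ρ) q q') : π w = π w' := by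
  obtain ⟨a₀, b₀, ka, kb, h₀, hk, rfl⟩ := hπ
  obtain ⟨za, zb, hrz⟩ := exists_ray (x := z) (c := x) (r := ρ + 1) (by omega)
  obtain ⟨va, vb, hrv⟩ := exists_ray (x := v₁) (c := x) (r := ρ + 1) hv
  obtain ⟨R, hR⟩ : ∃ R : Pt → Pt → Prop, R = fun u w => ρ + 1 < dn x u ∧ ρ + 1 < dn x w := ⟨_, rfl⟩
  rw [← hR] at hrz hrv
  -- first edge set
  have h1 : Half (fun u w => Fr T E u w ∨ R u w) v₁ (fun v => a₀ v + za v) (fun v => b₀ v + zb v) :=
    (hrz.mono fun _ _ h => Or.inr h).chain (h₀.mono fun _ _ h => Or.inl h)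
  have hE1 := h1.even hrv
  -- second edge set
  have h2 : Half (fun u w => Kw T E z D u w ∨ R u w) z (fun v => ka v + va v)
      (fun v => kb v + vb v) :=
    (hrv.mono fun _ _ h => Or.inr h).chain (hk.mono fun _ _ h => Or.inl h)
  have hE2 := h2.even hrz
  -- the parity is the sum
  obtain ⟨M1, hM1⟩ := hE1.bd
  obtain ⟨M2, hM2⟩ := hE2.bd
  have hsum : ∀ f, par (fun u => a₀ u + ka u) f = par (fun v => a₀ v + za v + va v) f +
      par (fun v => ka v + va v + za v) f := by
    intro f
    rw [← par_add (fun v hv => (hM1 v hv).1) (fun v hv => (hM2 v hv).1)]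
    congr 1
    funext v
    have : ∀ p q r s : ZMod 2, p + q = p + r + s + (q + s + r) := by decide
    exact this _ _ _ _
  -- along the wall
  have k1 : par (fun v => a₀ v + za v + va v) w = par (fun v => a₀ v + za v + va v) w' := by
    have hav : ∀ v : Pt, a₀ v + za v + va v ≠ 0 → Fr T E v (v.1, v.2 + 1) ∨ R v (v.1, v.2 + 1) :=
      fun v hv => (z2_ne_add hv).elim (h1.av v) (fun h => Or.inr (hrv.av v h))
    have hbv : ∀ v : Pt, b₀ v + zb v + vb v ≠ 0 → Fr T E v (v.1 + 1, v.2) ∨ R v (v.1 + 1, v.2) :=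
      fun v hv => (z2_ne_add hv).elim (h1.bv v) (fun h => Or.inr (hrv.bv v h))
    have hno : ∀ p, p ∈ SS T E → dn x p ≤ ρ → ∀ u, ¬ (Fr T E p u ∨ R p u) ∧
        ¬ (Fr T E u p ∨ R u p) := by
      intro p hp hd u
      rw [hR]
      constructor
      · rintro (h | h)
        · exact h.1 hp
        · have := h.1; omega
      · rintro (h | h)
        · exact h.2 hp
        · have := h.2; omega
    have key : ∀ p, ReflTransGen (LS T E x ρ) q p → ∀ f, p ∈ corners f →
        par (fun v => a₀ v + za v + va v) w = par (fun v => a₀ v + za v + va v) f := by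
      intro p hp
      induction hp with
      | refl =>
        intro f hf
        exact around_of (P := fun u w => Fr T E u w ∨ R u w) hE1 hav hbv (hno q hqS hqd) hq hf
      | @tail c d _ hs ih =>
        intro f hf
        obtain ⟨g, hg1, hg2⟩ := common_face hs.1
        exact (ih g hg1).trans (around_of (P := fun u w => Fr T E u w ∨ R u w) hE1 hav hbv
          (hno d hs.2.2.1 hs.2.2.2.2) hg2 hf)
    exact key q' hloc w' hq'
  -- along the face walk
  have k2 : par (fun v => ka v + va v + za v) w = par (fun v => ka v + va v + za v) w' := by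
    have hav : ∀ v : Pt, ka v + va v + za v ≠ 0 → Kw T E z D v (v.1, v.2 + 1) ∨ R v (v.1, v.2 + 1) :=
      fun v hv => (z2_ne_add hv).elim (h2.av v) (fun h => Or.inr (hrz.av v h))
    have hbv : ∀ v : Pt, kb v + vb v + zb v ≠ 0 → Kw T E z D v (v.1 + 1, v.2) ∨ R v (v.1 + 1, v.2) :=
      fun v hv => (z2_ne_add hv).elim (h2.bv v) (fun h => Or.inr (hrz.bv v h))
    clear hloc hq' k1
    induction hwalk with
    | refl => rfl
    | @tail g g' _ hs ih =>
      rw [ih]
      by_contra hne
      obtain ⟨u, w, hP, c1, c2, c3, c4⟩ :=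
        cross_edge' (P := fun u w => Kw T E z D u w ∨ R u w) hE2 hav hbv hs.1 hne
      have d1 : dn x u ≤ ρ + 1 := (corner_near c1).trans (by have := hs.2.2.1; omega)
      rcases hP with (h | h | h) | h
      · exact hs.2.1 u c1 c3 h
      · exact hs.2.1 w c2 c4 h
      · have h3 := H924.dn_triangle x u z
        have h4 := H924.dn_comm z u
        omega
      · rw [hR] at h
        have := h.1
        omega
  rw [hsum, hsum, k1, k2]

end Vale.Agent.P155.NT862
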