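import Vale.Agent.P155.NT862.Sep
import Vale.Agent.P155.NT814.Ring

/-!
# P155, NT862: half chains (rays) and crossings of a ring
-/

namespace Vale.Agent.P155.NT862

open Vale.Agent.P155 T802 Finset NT Relation NT733

/-- an edge set mod 2 with boundary `x` (going to infinity), all edges in the relation `P` -/
structure Half (P : Pt → Pt → Prop) (x : Pt) (a b : Pt → ZMod 2) : Prop where
  bd : ∃ M : ℤ, ∀ v : Pt, v.1 < M → a v = 0 ∧ b v = 0
  bdr : ∀ v : Pt, a v + a (v.1, v.2 - 1) + b v + b (v.1 - 1, v.2) = ind (v = x)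
  av : ∀ v : Pt, a v ≠ 0 → P v (v.1, v.2 + 1)
  bv : ∀ v : Pt, b v ≠ 0 → P v (v.1 + 1, v.2)

variable {P Q : Pt → Pt → Prop} {x y : Pt} {a b a' b' : Pt → ZMod 2}

theorem Half.mono (h : Half P x a b) (hPQ : ∀ u w, P u w → Q u w) : Half Q x a b where
  bd := h.bd
  bdr := h.bdr
  av v hv := hPQ _ _ (h.av v hv)
  bv v hv := hPQ _ _ (h.bv v hv)

/-- a chain continued by a half chain -/
theorem Half.chain (h : Half P y a b) (h' : Chain P x y a' b') :
    Half P x (fun v => a' v + a v) (fun v => b' v + b v) where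
  bd := by
    obtain ⟨M, hM⟩ := h.bd
    obtain ⟨M', hM'⟩ := h'.bd
    refine ⟨min M M', fun v hv => ?_⟩
    have h1 := hM v (hv.trans_le (min_le_left _ _))
    have h2 := hM' v (hv.trans_le (min_le_right _ _))
    rw [h1.1, h1.2, h2.1, h2.2]
    simp
  bdr v := by
    have h1 := h.bdr v
    have h2 := h'.bdr v
    have key : ∀ a1 a2 b1 b2 c1 c2 d1 d2 p q : ZMod 2, a1 + a2 + b1 + b2 = p + q →
        c1 + c2 + d1 + d2 = q → (a1 + c1) + (a2 + c2) + (b1 + d1) + (b2 + d2) = p := by
      intro a1 a2 b1 b2 c1 c2 d1 d2 p q e1 e2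
      have : (a1 + c1) + (a2 + c2) + (b1 + d1) + (b2 + d2) =
        (a1 + a2 + b1 + b2) + (c1 + c2 + d1 + d2) := by ring
      rw [this, e1, e2, add_assoc, z2, add_zero]
    exact key _ _ _ _ _ _ _ _ _ _ h2 h1
  av v hv := (z2_ne_add hv).elim (h'.av v) (h.av v)
  bv v hv := (z2_ne_add hv).elim (h'.bv v) (h.bv v)

/-- two half chains with the same end -/
theorem Half.even (h : Half P x a b) (h' : Half Q x a' b') :
    EvenSet (fun v => a v + a' v) (fun v => b v + b' v) where
  bd := by
    obtain ⟨M, hM⟩ := h.bd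
    obtain ⟨M', hM'⟩ := h'.bd
    refine ⟨min M M', fun v hv => ?_⟩
    have h1 := hM v (hv.trans_le (min_le_left _ _))
    have h2 := hM' v (hv.trans_le (min_le_right _ _))
    rw [h1.1, h1.2, h2.1, h2.2]
    simp
  even v := by
    have h1 := h.bdr v
    have h2 := h'.bdr v
    calc _ = (a v + a (v.1, v.2 - 1) + b v + b (v.1 - 1, v.2)) +
        (a' v + a' (v.1, v.2 - 1) + b' v + b' (v.1 - 1, v.2)) := by ring
      _ = 0 := by rw [h1, h2, z2]

/-- the ray to the right -/
noncomputable def rr (x v : Pt) : ZMod 2 := ind (v.2 = x.2 ∧ x.1 ≤ v.1)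

/-- the ray upwards -/
noncomputable def ru (x v : Pt) : ZMod 2 := ind (v.1 = x.1 ∧ x.2 ≤ v.2)

theorem rr_half (x : Pt) : Half (fun u w => (u.2 = x.2 ∧ x.1 ≤ u.1) ∧ w = (u.1 + 1, u.2)) x
    (fun _ => 0) (rr x) where
  bd := ⟨x.1, fun v hv => ⟨rfl, ind_false (fun h => by omega)⟩⟩
  bdr v := by
    simp only [zero_add]
    unfold rr
    by_cases h1 : v.2 = x.2 ∧ x.1 ≤ v.1
    · rw [ind_true h1]
      by_cases h2 : v.1 = x.1
      · rw [ind_false (fun h => by simp only at h; omega), ind_true (Prod.ext h2 h1.1), add_zero]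
      · rw [ind_true ⟨h1.1, by simp only; omega⟩, ind_false (fun h => h2 (by rw [h]))]
        decide
    · rw [ind_false h1, ind_false (fun h => h1 ⟨h.1, by simp only at h; omega⟩),
        ind_false (fun h => h1 (by rw [h]; exact ⟨rfl, le_rfl⟩)), add_zero]
  av v hv := absurd rfl hv
  bv v hv := ⟨ind_ne_zero hv, rfl⟩

theorem ru_half (x : Pt) : Half (fun u w => (u.1 = x.1 ∧ x.2 ≤ u.2) ∧ w = (u.1, u.2 + 1)) x
    (ru x) (fun _ => 0) where
  bd := ⟨x.1, fun v hv => ⟨ind_false (fun h => by omega), rfl⟩⟩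
  bdr v := by
    simp only [add_zero]
    unfold ru
    by_cases h1 : v.1 = x.1 ∧ x.2 ≤ v.2
    · rw [ind_true h1]
      by_cases h2 : v.2 = x.2
      · rw [ind_false (fun h => by simp only at h; omega), ind_true (Prod.ext h1.1 h2), add_zero]
      · rw [ind_true ⟨h1.1, by simp only; omega⟩, ind_false (fun h => h2 (by rw [h]))]
        decide
    · rw [ind_false h1, ind_false (fun h => h1 ⟨h.1, by simp only at h; omega⟩),
        ind_false (fun h => h1 (by rw [h]; exact ⟨rfl, le_rfl⟩)), add_zero]
  av v hv := ⟨ind_ne_zero hv, rfl⟩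
  bv v hv := absurd rfl hv

/-- a ray off a box -/
theorem exists_ray {x c : Pt} {r : ℕ} (h : r < dn c x) :
    ∃ a b, Half (fun u w => r < dn c u ∧ r < dn c w) x a b := by
  have hs := dn_le_iff' (z := c) (w := x) (s := r)
  by_cases h1 : c.1 - r ≤ x.1 ∨ x.2 < c.2 - r ∨ c.2 + r < x.2
  · refine ⟨_, _, (rr_half x).mono ?_⟩
    rintro u w ⟨h2, rfl⟩
    constructor
    · by_contra h3
      have := dn_le_iff'.1 (not_lt.1 h3)
      exact absurd (hs.2 ⟨by omega, by omega, by omega, by omega⟩) (not_le.2 h)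
    · by_contra h3
      have := dn_le_iff'.1 (not_lt.1 h3)
      simp only at this
      exact absurd (hs.2 ⟨by omega, by omega, by omega, by omega⟩) (not_le.2 h)
  · refine ⟨_, _, (ru_half x).mono ?_⟩
    rintro u w ⟨h2, rfl⟩
    constructor
    · by_contra h3
      have := dn_le_iff'.1 (not_lt.1 h3)
      omega
    · by_contra h3
      have := dn_le_iff'.1 (not_lt.1 h3)
      simp only at this
      omega

/-! ### crossings of a ring -/

/-- coefficient of the edge between the faces `rp t`, `rp (t + 1)` -/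
def co (a b : Pt → ZMod 2) (z : Pt) (s t : ℤ) : ZMod 2 :=
  if t < 2 * s then b (wi z s t) else if t < 4 * s then a (wi z s t)
  else if t < 6 * s then b (wo z s t) else a (wo z s t)

theorem co_add (a b a' b' : Pt → ZMod 2) (z : Pt) (s t : ℤ) :
    co (fun v => a v + a' v) (fun v => b v + b' v) z s t = co a b z s t + co a' b' z s t := by
  unfold co
  split_ifs <;> rfl

theorem co_spec (h : EvenSet a b) (z : Pt) {s : ℕ} {t : ℤ} (h0 : 0 ≤ t) (h1 : t < 8 * s) :
    par a (rp z s (t + 1)) = par a (rp z s t) + co a b z s t := by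
  unfold co
  by_cases c1 : t < 2 * s
  · rw [if_pos c1]
    have e1 : rp z s t = (z.1 + s, z.2 - s + t) := by unfold rp; rw [if_pos c1]
    have e2 : rp z s (t + 1) = (z.1 + s, z.2 - s + t + 1) := by
      unfold rp
      by_cases c2 : t + 1 < 2 * s
      · rw [if_pos c2]; refine Prod.ext rfl ?_; dsimp only; omega
      · rw [if_neg c2, if_pos (by omega)]; refine Prod.ext ?_ ?_ <;> dsimp only <;> omega
    have e3 : wi z s t = (z.1 + s, z.2 - s + t + 1) := by unfold wi; rw [if_pos c1]
    rw [e1, e2, e3, par_up h, add_sub_cancel_right]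
  · rw [if_neg c1]
    by_cases c2 : t < 4 * s
    · rw [if_pos c2]
      have e1 : rp z s t = (z.1 + 3 * s - t, z.2 + s) := by
        unfold rp; rw [if_neg c1, if_pos c2]
      have e2 : rp z s (t + 1) = (z.1 + 3 * s - t - 1, z.2 + s) := by
        unfold rp
        rw [if_neg (by omega)]
        by_cases c3 : t + 1 < 4 * s
        · rw [if_pos c3]; refine Prod.ext ?_ rfl; dsimp only; omega
        · rw [if_neg c3, if_pos (by omega)]; refine Prod.ext ?_ ?_ <;> dsimp only <;> omega
      have e3 : wi z s t = (z.1 + 3 * s - t, z.2 + s) := by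
        unfold wi; rw [if_neg c1, if_pos c2]
      rw [e1, e2, e3, par_right h (z.1 + 3 * s - t) (z.2 + s), add_assoc, z2, add_zero]
    · rw [if_neg c2]
      by_cases c3 : t < 6 * s
      · rw [if_pos c3]
        have e1 : rp z s t = (z.1 - s, z.2 + 5 * s - t) := by
          unfold rp; rw [if_neg c1, if_neg c2, if_pos c3]
        have e2 : rp z s (t + 1) = (z.1 - s, z.2 + 5 * s - t - 1) := by
          unfold rp
          rw [if_neg (by omega), if_neg (by omega)]
          by_cases c4 : t + 1 < 6 * s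
          · rw [if_pos c4]; refine Prod.ext rfl ?_; dsimp only; omega
          · rw [if_neg c4]; refine Prod.ext ?_ ?_ <;> dsimp only <;> omega
        have e3 : wo z s t = (z.1 - s, z.2 + 5 * s - t) := by
          unfold wo; rw [if_neg c1, if_neg c2, if_pos c3]
        rw [e1, e2, e3, par_up h (z.1 - s) (z.2 + 5 * s - t), add_assoc, z2, add_zero]
      · rw [if_neg c3]
        have e1 : rp z s t = (z.1 - 7 * s + t, z.2 - s) := by
          unfold rp; rw [if_neg c1, if_neg c2, if_neg c3]
        have e2 : rp z s (t + 1) = (z.1 - 7 * s + t + 1, z.2 - s) := by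
          unfold rp
          rw [if_neg (by omega), if_neg (by omega), if_neg (by omega)]
          refine Prod.ext ?_ rfl; dsimp only; omega
        have e3 : wo z s t = (z.1 - 7 * s + t + 1, z.2 - s) := by
          unfold wo; rw [if_neg c1, if_neg c2, if_neg c3]
        rw [e1, e2, e3, par_right h, add_sub_cancel_right]

/-- the edge between `rp t` and `rp (t + 1)` satisfies the relation if its coefficient is not
zero -/
theorem co_ne (ha : ∀ v : Pt, a v ≠ 0 → P v (v.1, v.2 + 1)) (hb : ∀ v : Pt, b v ≠ 0 →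
    P v (v.1 + 1, v.2)) (z : Pt) {s : ℕ} {t : ℤ} (h0 : 0 ≤ t) (h1 : t < 8 * s)
    (hne : co a b z s t ≠ 0) : P (wi z s t) (wo z s t) ∨ P (wo z s t) (wi z s t) := by
  unfold co at hne
  by_cases c1 : t < 2 * s
  · rw [if_pos c1] at hne
    left
    have := hb _ hne
    have e : ((wi z s t).1 + 1, (wi z s t).2) = wo z s t := by
      unfold wi wo; rw [if_pos c1, if_pos c1]
    rwa [e] at this
  · rw [if_neg c1] at hne
    by_cases c2 : t < 4 * s
    · rw [if_pos c2] at hne
      left
      have := ha _ hne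
      have e : ((wi z s t).1, (wi z s t).2 + 1) = wo z s t := by
        unfold wi wo; rw [if_neg c1, if_pos c2, if_neg c1, if_pos c2]
      rwa [e] at this
    · rw [if_neg c2] at hne
      by_cases c3 : t < 6 * s
      · rw [if_pos c3] at hne
        right
        have := hb _ hne
        have e : ((wo z s t).1 + 1, (wo z s t).2) = wi z s t := by
          unfold wi wo; rw [if_neg c1, if_neg c2, if_pos c3, if_neg c1, if_neg c2, if_pos c3]
        rwa [e] at this
      · rw [if_neg c3] at hne
        right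
        have := ha _ hne
        have e : ((wo z s t).1, (wo z s t).2 + 1) = wi z s t := by
          unfold wi wo; rw [if_neg c1, if_neg c2, if_neg c3, if_neg c1, if_neg c2, if_neg c3]
        rwa [e] at this

/-- the ray to the right crosses the ring exactly once -/
theorem co_rr (z : Pt) {s : ℕ} (hs : 1 ≤ s) {t : ℤ} (h0 : 0 ≤ t) (h1 : t < 8 * s) :
    co (fun _ => 0) (rr z) z s t = ind (t = s - 1) := by
  unfold co
  by_cases c1 : t < 2 * s
  · rw [if_pos c1]
    unfold rr wi
    rw [if_pos c1]
    simp only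
    exact ind_congr ⟨fun h => by omega, fun h => ⟨by omega, by omega⟩⟩
  · rw [if_neg c1, ind_false (p := t = (s : ℤ) - 1) (by omega)]
    by_cases c2 : t < 4 * s
    · rw [if_pos c2]
    · rw [if_neg c2]
      by_cases c3 : t < 6 * s
      · rw [if_pos c3]
        unfold rr wo
        rw [if_neg c1, if_neg c2, if_pos c3]
        simp only
        exact ind_false (fun h => by omega)
      · rw [if_neg c3]

end Vale.Agent.P155.NT862
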