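import Vale.Agent.P155.NT862.Mic
import Vale.Agent.P155.NT905.Good
import Vale.Agent.P155.NT905.Lay2
import Vale.Agent.P155.F.CwFinal

/-!
# P155, NT862: two wall vertices which are not joined by the wall in a box lie on two strands
-/

namespace Vale.Agent.P155.NT862

open Vale.Agent.P155 T802 Finset NT Relation NT733 SW T905 NT905

variable {T : Temp} {ω : Conf} {xS t : ℤ} {i : ℕ} {x : Pt} {s ρ0 : ℕ}

theorem LS_mono {E : Set Pt} {ρ ρ' : ℕ} (h : ρ ≤ ρ') {q q' : Pt}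
    (hq : ReflTransGen (LS T E x ρ) q q') : ReflTransGen (LS T E x ρ') q q' :=
  Relation.ReflTransGen.mono (p := LS T E x ρ')
    (fun _ _ h' => ⟨h'.1, h'.2.1, h'.2.2.1, h'.2.2.2.1.trans h, h'.2.2.2.2.trans h⟩) _ _ hq

/-- an explored vertex: inside the box the strand through it is explored -/
theorem same_LS (hω : ω ∈ DD T.V) (hne : ω.1 (xS, t) ≠ ω.2 (xS, t))
    (h1 : (ρ0 : ℤ) + 1 < |x.1 - xS|) (h2 : ρ0 < dn x (go ω (xS, t) (i + 1))) {q q' : Pt}
    (hq : q ∈ Eti xS ω t i) (hd : dn x q ≤ ρ0)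
    (h : Same (res T.V (box x ρ0) ω) q q') :
    ReflTransGen (LS T (Eti xS ω t i) x ρ0) q q' ∧ q' ∈ Eti xS ω t i ∧ dn x q' ≤ ρ0 := by
  have hW : ∀ z ∈ box x ρ0, z ∉ Wall ω (Eti xS ω t i) := by
    intro z hz hW
    rcases wall_eti hω hne hW with h | h
    · have := far_line hz h1
      omega
    · rw [mem_box_dn905, h] at hz
      omega
  unfold Same at h
  induction h with
  | refl => exact ⟨ReflTransGen.refl, hq, hd⟩
  | @tail b c _ hs ih =>
    obtain ⟨ih1, ih2, ih3⟩ := ih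
    rcases res_step hs with rfl | ⟨k1, k2⟩
    · exact ⟨ih1, ih2, ih3⟩
    · have hc : c ∈ Eti xS ω t i := wall_closed ω _ b ih2 c (hW c k1) k2
      have hcd : dn x c ≤ ρ0 := mem_box_dn905.1 k1
      rcases step_eq_or_adj hω k2 with rfl | hadj
      · exact ⟨ih1, ih2, ih3⟩
      · exact ⟨ReflTransGen.tail ih1 ⟨hadj, Or.inl ih2, Or.inl hc, ih3, hcd⟩, hc, hcd⟩

/-- an explored vertex is joined to a vertex outside of the box -/
theorem leaves (hω : ω ∈ DD T.V) (h1 : (ρ0 : ℤ) + 1 < |x.1 - xS|) {q : Pt}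
    (hq : q ∈ Eti xS ω t i) : ∃ p, Same ω q p ∧ p ∉ box x ρ0 := by
  have hinv : Inv2 ω := by
    have hω' := Finset.mem_product.1 hω
    exact ⟨(mem_PM.1 hω'.1).invol, (mem_PM.1 hω'.2).invol⟩
  have hline : ∀ y : ℤ, (xS, y) ∉ box x ρ0 := by
    intro y hy
    have := far_line hy h1
    simp at this
  rcases hq with ⟨y, _, hv⟩ | ⟨j, _, rfl⟩
  · exact ⟨(xS, y), same_symm hinv hv, hline y⟩
  · exact ⟨(xS, t), same_symm hinv (go_same ω _ hω j), hline _⟩

/-- **two wall vertices which are not joined by the wall inside the box lie on two different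
strands of the box.** -/
theorem twoStr_of (hω : ω ∈ DD T.V) (hne : ω.1 (xS, t) ≠ ω.2 (xS, t))
    (h1 : (ρ0 : ℤ) + 1 < |x.1 - xS|) (h2 : ρ0 < dn x (go ω (xS, t) (i + 1))) (hs : s ≤ ρ0)
    (hface : s < dF T.faceSet x) {q q' : Pt} (hq : q ∈ SS T (Eti xS ω t i))
    (hq' : q' ∈ SS T (Eti xS ω t i)) (hd : dn x q ≤ s) (hd' : dn x q' ≤ s)
    (hn : ¬ ReflTransGen (LS T (Eti xS ω t i) x ρ0) q q') :
    TwoStr T.V (box x ρ0) ω x s := by
  have hin : ∀ u, dn x u ≤ s → u ∈ SS T (Eti xS ω t i) → u ∈ Eti xS ω t i := by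
    intro u hu hS
    rcases hS with h | h
    · exact h
    · exfalso
      obtain ⟨F, hF, a1, a2, a3, a4⟩ := face_of_dF hface u (mem_box_dn905.2 hu)
      exact h ⟨F, hF, by omega, by omega, by omega, by omega⟩
  have e1 := hin q hd hq
  have e2 := hin q' hd' hq'
  have hinv : Inv2 (res T.V (box x ρ0) ω) := by
    have hω' := Finset.mem_product.1 hω
    have h1 := mem_PM.1 hω'.1
    have h2 := mem_PM.1 hω'.2
    exact ⟨(E1.cutTo_PM h1 (Finset.filter_subset _ _) (fun v hv => by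
        simp only [Finset.mem_filter] at hv ⊢
        exact ⟨SW.pm_mem h1 hv.1, hv.2.2, by rw [h1.invol]; exact hv.2.1⟩)).invol,
      (E1.cutTo_PM h2 (Finset.filter_subset _ _) (fun v hv => by
        simp only [Finset.mem_filter] at hv ⊢
        exact ⟨SW.pm_mem h2 hv.1, hv.2.2, by rw [h2.invol]; exact hv.2.1⟩)).invol⟩
  obtain ⟨p, hp, hpB⟩ := leaves hω h1 e1
  obtain ⟨p', hp', hpB'⟩ := leaves hω h1 e2
  obtain ⟨z, hz, hzo⟩ := open_of_leaves (V := T.V) (B := box x ρ0) hp hpB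
  obtain ⟨z', hz', hzo'⟩ := open_of_leaves (V := T.V) (B := box x ρ0) hp' hpB'
  rw [twoStr_iff]
  refine ⟨z, z', hzo, hzo', fun hsame => ?_, fun _ => ⟨⟨q, mem_box_dn905.2 hd, same_symm hinv hz⟩,
    ⟨q', mem_box_dn905.2 hd', same_symm hinv hz'⟩⟩⟩
  have h3 : Same (res T.V (box x ρ0) ω) q q' :=
    same_trans (same_trans hz hsame) (same_symm hinv hz')
  exact hn (same_LS hω hne h1 h2 e1 (hd.trans hs) h3).1

end Vale.Agent.P155.NT862
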